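import Vale.Agent.P218DY.Norm

/-! The blow-up argument, relative to almost self-shrinkers. -/

open MeasureTheory Set Filter Topology Metric
open scoped ENNReal NNReal RealInnerProductSpace

namespace Vale.Agent.P218DY

open Vale.Agent.P214 (proj divAlong)
open Vale.Agent.P218 Vale.Agent.P218.H313

set_option linter.unusedSectionVars false
set_option linter.unusedVariables false

variable {E : Type*} [NormedAddCommGroup E] [InnerProductSpace ℝ E] [FiniteDimensional ℝ E]
variable {m : ℕ} {c K : ℝ}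

lemma exists_radius {ζ : E → ℝ} (hζc : HasCompactSupport ζ) :
    ∃ R : ℝ, 0 ≤ R ∧ ∀ x, R < ‖x‖ → ζ x = 0 ∧ fderiv ℝ (grad ζ) x = 0 := by
  have hf := (hasCompactSupport_grad hζc).fderiv (𝕜 := ℝ)
  obtain ⟨R, hR⟩ := (hζc.isCompact.union hf.isCompact).isBounded.subset_closedBall 0
  refine ⟨max R 0, le_max_right _ _, fun x hx => ?_⟩
  have hx' : x ∉ tsupport ζ ∪ tsupport (fderiv ℝ (grad ζ)) := fun h => by
    have := hR h
    rw [mem_closedBall_zero_iff] at this
    linarith [le_max_left R 0]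
  rw [mem_union, not_or] at hx'
  exact ⟨image_eq_zero_of_notMem_tsupport hx'.1, image_eq_zero_of_notMem_tsupport hx'.2⟩

/-- continuity of the Jacobi operator in the tube function -/
lemma jac_close {W W' ζ : E → ℝ} (hW : TubeG W c K) (hW' : TubeG W' c K) {B R ε : ℝ}
    (hB : 0 ≤ B) (hε : 0 ≤ ε) (h0 : ∀ x, |ζ x| ≤ B) (h2 : ∀ x, ‖fderiv ℝ (grad ζ) x‖ ≤ B)
    (hR : ∀ x, R < ‖x‖ → ζ x = 0 ∧ fderiv ℝ (grad ζ) x = 0)
    (hc : ∀ x, ‖x‖ ≤ R → ‖grad W' x - grad W x‖ ≤ ε ∧
      ‖fderiv ℝ (grad W') x - fderiv ℝ (grad W) x‖ ≤ ε) (x : E) :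
    |jac W' ζ x - jac W ζ x| ≤ (2 * B + 2 * Module.finrank ℝ E * K * B) * ε := by
  have hK := hW.K0
  rcases lt_or_ge R ‖x‖ with hx | hx
  · unfold jac
    rw [(hR x hx).1, (hR x hx).2]
    simp only [zero_apply, inner_zero_left, mul_zero, sub_self, abs_zero]
    positivity
  obtain ⟨c1, c2⟩ := hc x hx
  set D := fderiv ℝ (grad ζ) x
  set g := grad W x
  set g' := grad W' x
  set A := fderiv ℝ (grad W) x
  set A' := fderiv ℝ (grad W') x
  have e : jac W' ζ x - jac W ζ x = -(⟪D (g' - g), g'⟫ + ⟪D g, g' - g⟫)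
      + (tr (A'.comp (A' - A)) + tr ((A' - A).comp A)) * ζ x := by
    unfold jac
    rw [ContinuousLinearMap.comp_sub, ContinuousLinearMap.sub_comp, tr_sub, tr_sub, map_sub,
      inner_sub_left, inner_sub_right]
    ring
  have a1 : |⟪D (g' - g), g'⟫| ≤ B * ε := by
    refine (abs_real_inner_le_norm _ _).trans ?_
    calc ‖D (g' - g)‖ * ‖g'‖ ≤ (B * ε) * 1 := by
          gcongr
          · exact (D.le_opNorm _).trans (mul_le_mul (h2 x) c1 (norm_nonneg _) hB)
          · exact hW'.b1 x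
      _ = _ := mul_one _
  have a2 : |⟪D g, g' - g⟫| ≤ B * ε := by
    refine (abs_real_inner_le_norm _ _).trans ?_
    have : ‖D g‖ ≤ B := (D.le_opNorm _).trans
      ((mul_le_mul (h2 x) (hW.b1 x) (norm_nonneg _) hB).trans (le_of_eq (mul_one _)))
    gcongr
  have a3 : |tr (A'.comp (A' - A))| ≤ Module.finrank ℝ E * (K * ε) := by
    refine (abs_tr_le _).trans ?_
    gcongr
    exact (ContinuousLinearMap.opNorm_comp_le _ _).trans
      (mul_le_mul (hW'.b2 x) c2 (norm_nonneg _) hK)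
  have a4 : |tr ((A' - A).comp A)| ≤ Module.finrank ℝ E * (ε * K) := by
    refine (abs_tr_le _).trans ?_
    gcongr
    exact (ContinuousLinearMap.opNorm_comp_le _ _).trans
      (mul_le_mul c2 (hW.b2 x) (norm_nonneg _) hε)
  rw [e]
  refine (abs_add_le _ _).trans ?_
  rw [abs_neg, abs_mul]
  have a5 := (abs_add_le _ _).trans (add_le_add a1 a2)
  have a6 := (abs_add_le _ _).trans (add_le_add a3 a4)
  have a7 : |tr (A'.comp (A' - A)) + tr ((A' - A).comp A)| * |ζ x|
      ≤ (Module.finrank ℝ E * (K * ε) + Module.finrank ℝ E * (ε * K)) * B :=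
    mul_le_mul a6 (h0 x) (abs_nonneg _) (by positivity)
  linarith

variable [MeasurableSpace E] [BorelSpace E]

/-- the normalised defect is close to a given function -/
lemma df_close {μ : Measure E} {T : E → Submodule ℝ E} {H : E → E} {W : E → ℝ}
    (hW : TubeG W c K) (hS : GSlice m μ T H) {ζ f : E → ℝ} (hζ : Continuous ζ)
    (hζc : HasCompactSupport ζ) (hf : Continuous f) {B R Bf a t δ M : ℝ} (hB : 0 ≤ B)
    (hBf : 0 ≤ Bf) (ha : 0 ≤ a) (ht : 0 ≤ t) (hδ : 0 < δ) (h0 : ∀ x, |ζ x| ≤ B)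
    (hR : ∀ x, R < ‖x‖ → ζ x = 0) (hfB : ∀ x, ‖x‖ ≤ R → |f x| ≤ Bf)
    (hM : ∫ x, rho x ∂μ ≤ M)
    (hcl : ∀ x, ‖x‖ ≤ R → |W x| < δ → |t * df W x - f x| ≤ a) :
    |t * ∫ x, ζ x * df W x * rho x ∂μ - ∫ x, ζ x * f x * rho x ∂μ|
      ≤ B * (a * M + (t * ((Module.finrank ℝ E + 1) * K) + Bf) / δ ^ 2 * DD μ W 0) := by
  have hK := hW.K0
  have i1 : Integrable (fun x => ζ x * df W x * rho x) μ :=
    hS.integrable_PB (hζ.mul hW.continuous_df).aestronglyMeasurable
      (PB.of_compact (hζ.mul hW.continuous_df) hζc.mul_right)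
  have i2 : Integrable (fun x => ζ x * f x * rho x) μ :=
    hS.integrable_PB (hζ.mul hf).aestronglyMeasurable (PB.of_compact (hζ.mul hf) hζc.mul_right)
  have i3 : Integrable (fun x => rho x) μ := by simpa using hS.mom 0
  have i4 := hW.int_DD hS 0
  set b := (t * ((Module.finrank ℝ E + 1) * K) + Bf) / δ ^ 2 with hb
  have hb0 : 0 ≤ b := by positivity
  rw [← integral_const_mul, ← integral_sub (i1.const_mul t) i2, ← Real.norm_eq_abs]
  have e1 : ‖∫ x, (t * (ζ x * df W x * rho x) - ζ x * f x * rho x) ∂μ‖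
      ≤ ∫ x, (B * a * rho x + B * b * (W x ^ 2 * wt 0 x * rho x)) ∂μ := by
    refine norm_integral_le_of_norm_le ((i3.const_mul _).add (i4.const_mul _))
      (Eventually.of_forall fun x => ?_)
    have hr := rho_pos x
    simp only [wt, pow_zero, mul_one]
    rcases lt_or_ge R ‖x‖ with hx | hx
    · rw [hR x hx]
      simp only [zero_mul, mul_zero, sub_self, norm_zero]
      positivity
    have e2 : t * (ζ x * df W x * rho x) - ζ x * f x * rho x
        = ζ x * (t * df W x - f x) * rho x := by ring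
    have e3 : |t * df W x - f x| ≤ a + b * W x ^ 2 := by
      rcases lt_or_ge |W x| δ with h | h
      · have := hcl x hx h
        have : 0 ≤ b * W x ^ 2 := by positivity
        linarith
      · have h1 : |t * df W x - f x| ≤ t * ((Module.finrank ℝ E + 1) * K) + Bf := by
          refine (abs_sub _ _).trans (add_le_add ?_ (hfB x hx))
          rw [abs_mul, abs_of_nonneg ht]
          exact mul_le_mul_of_nonneg_left (hW.abs_dfc_le _) ht
        have h2 : δ ^ 2 ≤ W x ^ 2 := by rw [← sq_abs (W x)]; gcongr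
        have h3 : b * δ ^ 2 ≤ b * W x ^ 2 := by gcongr
        have h4 : b * δ ^ 2 = t * ((Module.finrank ℝ E + 1) * K) + Bf := by
          rw [hb]; field_simp
        linarith
    rw [e2, Real.norm_eq_abs, abs_mul, abs_mul, abs_of_pos hr]
    calc |ζ x| * |t * df W x - f x| * rho x ≤ B * (a + b * W x ^ 2) * rho x := by
          gcongr
          exact h0 x
      _ = _ := by ring
  refine e1.trans ?_
  rw [integral_comb2 i3 i4]
  have e4 : B * a * ∫ x, rho x ∂μ ≤ B * a * M := by gcongr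
  change B * a * ∫ x, rho x ∂μ + B * b * DD μ W 0 ≤ _
  nlinarith

variable {ι : Type*} {U : Ultrafilter ι} {N : ι → Measure E}
  {T : ι → E → Submodule ℝ E} {H : ι → E → E} {κ : Measure E}
variable {Λ : Type*} [NormedAddCommGroup Λ] [NormedSpace ℝ Λ]

/-- the normalised defects converge weakly -/
lemma tendsto_df (h : Conv U m N T H κ) {Wi : ι → E → ℝ}
    (hWi : ∀ᶠ i in (U : Filter ι), TubeG (Wi i) c K) (hc : 0 < c)
    {e : Λ →ₗ[ℝ] (E → ℝ)} (hec : ∀ l, Continuous (e l)) {C : ℝ} {q : ℕ}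
    (hel : ∀ l x, |e l x| ≤ C * (1 + ‖x‖) ^ q * ‖l‖) {lam : ι → Λ} {σ D : ι → ℝ}
    (herr : ∀ᶠ i in (U : Filter ι), ∀ y, Wi i y = 0 →
      |dfc (Wi i) y - e (lam i) y| ≤ σ i * (1 + ‖y‖) ^ q)
    (hpos : ∀ᶠ i in (U : Filter ι), 0 < D i ∧ DD (N i) (Wi i) 0 ≤ D i)
    (hD : Tendsto D U (𝓝 0)) (hσ : Tendsto (fun i => (√(D i))⁻¹ * σ i) U (𝓝 0)) {l : Λ}
    (hl : Tendsto (fun i => (√(D i))⁻¹ • lam i) U (𝓝 l))
    {ζ : E → ℝ} (hζ : Continuous ζ) (hζc : HasCompactSupport ζ) :
    Tendsto (fun i => (√(D i))⁻¹ * ∫ x, ζ x * df (Wi i) x * rho x ∂(N i)) U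
      (𝓝 (∫ x, ζ x * e l x * rho x ∂κ)) := by
  have := h.lf
  obtain ⟨B, hB⟩ := hζc.exists_bound_of_continuous hζ
  have hB0 : 0 ≤ B := (norm_nonneg _).trans (hB 0)
  obtain ⟨R, hR0, hR⟩ := exists_radius hζc
  obtain ⟨M, hM⟩ := h.mom 0
  set n : ℝ := (Module.finrank ℝ E : ℝ)
  have l1 : Tendsto (fun i => ∫ x, ζ x * e l x * rho x ∂(N i)) U
      (𝓝 (∫ x, ζ x * e l x * rho x ∂κ)) :=
    h.lim _ ((hζ.mul (hec l)).mul continuous_rho) hζc.mul_right.mul_right
  suffices hs : Tendsto (fun i => (√(D i))⁻¹ * ∫ x, ζ x * df (Wi i) x * rho x ∂(N i)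
      - ∫ x, ζ x * e l x * rho x ∂(N i)) U (𝓝 0) by
    simpa using hs.add l1
  rw [Metric.tendsto_nhds]
  intro ε hε
  -- uniform continuity
  set ε' := ε / (2 * (B + 1) * (|M| + 1)) with hε'
  have hε'0 : 0 < ε' := by positivity
  have huc := (isCompact_closedBall (0 : E) (R + 1)).uniformContinuousOn_of_continuous
    (hec l).continuousOn
  obtain ⟨δ₀, hδ₀, hδ⟩ := Metric.uniformContinuousOn_iff.1 huc (ε' / 2) (by positivity)
  set δ := min δ₀ c with hδd
  have hδ0 : 0 < δ := lt_min hδ₀ hc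
  set Bf := |C| * (1 + R) ^ q * ‖l‖ with hBf
  have hsD : Tendsto (fun i => √(D i)) U (𝓝 0) := by
    have := hD.sqrt; rwa [Real.sqrt_zero] at this
  have t1 : Tendsto (fun i => |(√(D i))⁻¹ * σ i| * (2 + R) ^ q
      + |C| * (2 + R) ^ q * ‖(√(D i))⁻¹ • lam i - l‖) U (𝓝 0) := by
    have a1 := (hσ.abs.mul_const ((2 + R) ^ q))
    have a2 := ((tendsto_iff_norm_sub_tendsto_zero.1 hl).const_mul (|C| * (2 + R) ^ q))
    simpa using a1.add a2
  have t2 : Tendsto (fun i => B * ((√(D i) * ((n + 1) * K) + Bf * D i) / δ ^ 2)) U (𝓝 0) := by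
    have := (((hsD.mul_const ((n + 1) * K)).add (hD.const_mul Bf)).div_const (δ ^ 2)).const_mul B
    simpa using this
  filter_upwards [hWi, h.sl, herr, hpos, hM, t1.eventually_le_const (half_pos hε'0),
    t2.eventually_lt_const (half_pos hε)] with i hi hs he hp hm s1 s2
  have hK := hi.K0
  have hsp : 0 < √(D i) := Real.sqrt_pos.2 hp.1
  have hm' : ∫ x, rho x ∂(N i) ≤ |M| + 1 := by
    have : ∫ x, rho x ∂(N i) ≤ M := by simpa using hm
    linarith [le_abs_self M]
  have key := df_close hi hs hζ hζc (hec l) (B := B) (R := R) (Bf := Bf) (a := ε')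
    (t := (√(D i))⁻¹) (δ := δ) (M := |M| + 1) hB0 (by positivity) hε'0.le (by positivity) hδ0
    (fun x => hB x) (fun x hx => (hR x hx).1) (fun x hx => by
      refine (hel l x).trans ?_
      rw [hBf]
      gcongr
      exact le_abs_self C) hm' (fun x hx hw => by
      have hwc : |Wi i x| < c := hw.trans_le (min_le_right _ _)
      have b1 := he _ (hi.ft_zero hwc)
      have b2 := hi.norm_ft_le x
      have b3 := hi.c_le
      have b4 : (1 + ‖ft (Wi i) x‖) ^ q ≤ (2 + R) ^ q :=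
        pow_le_pow_left₀ (by positivity) (by linarith) q
      have b5 := hel ((√(D i))⁻¹ • lam i - l) (ft (Wi i) x)
      have b6 : |e l (ft (Wi i) x) - e l x| < ε' / 2 := by
        have := hδ (ft (Wi i) x) (by rw [mem_closedBall_zero_iff]; linarith) x
          (by rw [mem_closedBall_zero_iff]; linarith)
          (by rw [dist_eq_norm]
              exact (hi.norm_ft_sub x).trans_lt (hw.trans_le (min_le_left _ _)))
        rwa [Real.dist_eq] at this
      have e1 : (√(D i))⁻¹ * df (Wi i) x - e l x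
          = (√(D i))⁻¹ * (dfc (Wi i) (ft (Wi i) x) - e (lam i) (ft (Wi i) x))
            + e ((√(D i))⁻¹ • lam i - l) (ft (Wi i) x) + (e l (ft (Wi i) x) - e l x) := by
        rw [map_sub, map_smul]
        simp only [df, Pi.sub_apply, Pi.smul_apply, smul_eq_mul]
        ring
      have b7 : |(√(D i))⁻¹ * (dfc (Wi i) (ft (Wi i) x) - e (lam i) (ft (Wi i) x))|
          ≤ |(√(D i))⁻¹ * σ i| * (2 + R) ^ q := by
        rw [abs_mul, abs_mul, mul_assoc]
        gcongr
        refine b1.trans ?_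
        gcongr
        exact le_abs_self _
      have b8 : |e ((√(D i))⁻¹ • lam i - l) (ft (Wi i) x)|
          ≤ |C| * (2 + R) ^ q * ‖(√(D i))⁻¹ • lam i - l‖ := by
        refine b5.trans ?_
        gcongr
        exact le_abs_self _
      rw [e1]
      have b9 := abs_add_three ((√(D i))⁻¹ * (dfc (Wi i) (ft (Wi i) x) - e (lam i) (ft (Wi i) x)))
        (e ((√(D i))⁻¹ • lam i - l) (ft (Wi i) x)) (e l (ft (Wi i) x) - e l x)
      linarith)
  rw [dist_zero_right, Real.norm_eq_abs]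
  refine key.trans_lt ?_
  have c1 : B * (ε' * (|M| + 1)) ≤ ε / 2 := by
    have : B * (ε' * (|M| + 1)) = ε / 2 * (B / (B + 1)) := by rw [hε']; field_simp
    rw [this]
    exact mul_le_of_le_one_right (by positivity) ((div_le_one (by positivity)).2 (by linarith))
  have c2 : ((√(D i))⁻¹ * ((n + 1) * K) + Bf) / δ ^ 2 * DD (N i) (Wi i) 0
      ≤ (√(D i) * ((n + 1) * K) + Bf * D i) / δ ^ 2 := by
    have c3 : ((√(D i))⁻¹ * ((n + 1) * K) + Bf) / δ ^ 2 * DD (N i) (Wi i) 0
        ≤ ((√(D i))⁻¹ * ((n + 1) * K) + Bf) / δ ^ 2 * D i := by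
      gcongr
      exact hp.2
    refine c3.trans (le_of_eq ?_)
    set s := √(D i) with hs
    have e8 : D i = s ^ 2 := (Real.sq_sqrt hp.1.le).symm
    rw [e8]
    field_simp
  have c4 := mul_le_mul_of_nonneg_left c2 hB0
  linarith

end Vale.Agent.P218DY
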