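import Vale.Agent.P218DY.Blow

/-! The blow-up argument, relative to almost self-shrinkers: conclusion. -/

open MeasureTheory Set Filter Topology Metric
open scoped ENNReal NNReal RealInnerProductSpace

namespace Vale.Agent.P218DY

open Vale.Agent.P214 (proj divAlong)
open Vale.Agent.P218 Vale.Agent.P218.H313

set_option linter.unusedSectionVars false
set_option linter.unusedVariables false

variable {E : Type*} [NormedAddCommGroup E] [InnerProductSpace ℝ E] [FiniteDimensional ℝ E]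
  [MeasurableSpace E] [BorelSpace E]
variable {m : ℕ} {c K : ℝ}
variable {ι : Type*} {U : Ultrafilter ι} {N : ι → Measure E}
  {T : ι → E → Submodule ℝ E} {H : ι → E → E} {κ : Measure E}
variable {Λ : Type*} [NormedAddCommGroup Λ] [NormedSpace ℝ Λ] [FiniteDimensional ℝ Λ]

/-- the defect in the tube, from the expansion on the zero set -/
lemma df_le_of_err {W : E → ℝ} (hW : TubeG W c K) {e : Λ →ₗ[ℝ] (E → ℝ)} {C σ : ℝ} {q : ℕ}
    (hel : ∀ l x, |e l x| ≤ C * (1 + ‖x‖) ^ q * ‖l‖) {l : Λ}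
    (herr : ∀ y, W y = 0 → |dfc W y - e l y| ≤ σ * (1 + ‖y‖) ^ q) :
    ∀ y, W y = 0 → |dfc W y| ≤ (|C| * ‖l‖ + |σ|) * (1 + ‖y‖) ^ q := by
  intro y hy
  have h1 := herr y hy
  have h2 := hel l y
  have h3 := abs_add_le (dfc W y - e l y) (e l y)
  rw [sub_add_cancel] at h3
  have h4 : σ * (1 + ‖y‖) ^ q ≤ |σ| * (1 + ‖y‖) ^ q := by gcongr; exact le_abs_self _
  have h5 : C * (1 + ‖y‖) ^ q * ‖l‖ ≤ |C| * (1 + ‖y‖) ^ q * ‖l‖ := by gcongr; exact le_abs_self _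
  nlinarith

/-- **Blow-up.** -/
theorem blow (hm : 0 < m) (hE : Module.finrank ℝ E = m + 1) (h : Conv U m N T H κ)
    (hκ : ∀ x : E, ∀ c > om m, ∀ᶠ r in 𝓝[>] (0 : ℝ), (∫ y, H313.ker (r⁻¹ • (y - x)) ∂κ) / r ^ m ≤ c)
    {W : E → ℝ} {Wi : ι → E → ℝ} (hW : TubeG W c K)
    (hWi : ∀ᶠ i in (U : Filter ι), TubeG (Wi i) c K)
    (hconv : ∀ R ε : ℝ, 0 < ε → ∀ᶠ i in (U : Filter ι), ∀ x, ‖x‖ ≤ R →
      ‖grad (Wi i) x - grad W x‖ ≤ ε ∧ ‖fderiv ℝ (grad (Wi i)) x - fderiv ℝ (grad W) x‖ ≤ ε)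
    {e : Λ →ₗ[ℝ] (E → ℝ)} (hec : ∀ l, Continuous (e l)) {C : ℝ} {q : ℕ}
    (hel : ∀ l x, |e l x| ≤ C * (1 + ‖x‖) ^ q * ‖l‖) {lam : ι → Λ} {σ : ι → ℝ}
    (herr : ∀ᶠ i in (U : Filter ι), ∀ y, Wi i y = 0 →
      |dfc (Wi i) y - e (lam i) y| ≤ σ i * (1 + ‖y‖) ^ q)
    {Z : Set (E → ℝ)} (hZc : ∀ z ∈ Z, Continuous z ∧ PB z)
    (hZ : ∀ z ∈ Z, ∀ᶠ i in (U : Filter ι), ∫ x, Wi i x * z x * rho x ∂(N i) = 0)
    (hnd : ∀ (u : E → ℝ) (l : Λ), AEStronglyMeasurable u κ →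
      Integrable (fun x => u x ^ 2 * rho x) κ →
      (∀ ζ : E → ℝ, ContDiff ℝ 2 ζ → HasCompactSupport ζ →
        ∫ x, u x * jac W ζ x * rho x ∂κ = ∫ x, ζ x * e l x * rho x ∂κ) →
      (∀ z ∈ Z, ∫ x, z x * u x * rho x ∂κ = 0) → (∀ᵐ x ∂κ, u x = 0) ∧ l = 0)
    {D : ι → ℝ} (hDe : ∀ i, D i = DD (N i) (Wi i) 0 + ‖lam i‖ ^ 2)
    (hpos : ∀ᶠ i in (U : Filter ι), 0 < D i) (hD : Tendsto D U (𝓝 0))
    (hdis : Tendsto (fun i => dis (N i) (T i) (H i) / D i) U (𝓝 0))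
    (hσ : Tendsto (fun i => (√(D i))⁻¹ * σ i) U (𝓝 0)) : False := by
  have := h.lf
  have hc := hW.cpos
  have hK := hW.K0
  have hDD : ∀ i, DD (N i) (Wi i) 0 ≤ D i := fun i => by
    rw [hDe]; linarith [sq_nonneg ‖lam i‖]
  have hlamD : ∀ i, ‖lam i‖ ^ 2 ≤ D i := fun i => by
    rw [hDe]; linarith [DD_nonneg (μ := N i) (W := Wi i) 0]
  have hwc : ∀ᶠ i in (U : Filter ι), Continuous (nd (D i) (Wi i)) ∧ PB (nd (D i) (Wi i)) := by
    filter_upwards [hWi] with i hi using ⟨nd_cont hi, nd_pb hi⟩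
  obtain ⟨u, hum, hu2, hu⟩ := h.exists_weak_lim (w := fun i => nd (D i) (Wi i)) hwc
    (hpos.mono fun i hi => by rw [nd_norm hi]; exact (div_le_one hi).2 (hDD i))
  obtain ⟨M, hM⟩ := h.mom 0
  have hM' : ∀ᶠ i in (U : Filter ι), ∫ x, rho x ∂(N i) ≤ M := by
    filter_upwards [hM] with i hi; simpa using hi
  -- the limit of the multipliers
  have hl1 : ∀ᶠ i in (U : Filter ι), (√(D i))⁻¹ • lam i ∈ closedBall (0 : Λ) 1 := by
    filter_upwards [hpos] with i hi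
    have hs : 0 < √(D i) := Real.sqrt_pos.2 hi
    rw [mem_closedBall_zero_iff, norm_smul, norm_inv, Real.norm_of_nonneg hs.le,
      inv_mul_le_iff₀ hs, mul_one]
    exact Real.le_sqrt_of_sq_le (hlamD i)
  obtain ⟨l, -, hl⟩ := (isCompact_closedBall (0 : Λ) 1).ultrafilter_le_nhds
    (U.map fun i => (√(D i))⁻¹ • lam i) (by
      rw [Ultrafilter.coe_map, le_principal_iff]; exact hl1)
  replace hl : Tendsto (fun i => (√(D i))⁻¹ • lam i) U (𝓝 l) := hl
  have hsD : Tendsto (fun i => √(D i)) U (𝓝 0) := by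
    have := hD.sqrt; rwa [Real.sqrt_zero] at this
  have hsdis : Tendsto (fun i => √(dis (N i) (T i) (H i) / D i)) U (𝓝 0) := by
    have := hdis.sqrt; rwa [Real.sqrt_zero] at this
  have hdis1 : ∀ᶠ i in (U : Filter ι), dis (N i) (T i) (H i) ≤ D i := by
    filter_upwards [hdis.eventually_le_const (by norm_num : (0 : ℝ) < 1), hpos] with i h1 h2
    exact (div_le_one h2).1 h1
  have hσ1 : ∀ᶠ i in (U : Filter ι), σ i ^ 2 ≤ D i := by
    filter_upwards [hσ.abs.eventually_le_const (by simp : |(0 : ℝ)| < 1), hpos] with i h1 h2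
    have hs : 0 < √(D i) := Real.sqrt_pos.2 h2
    rw [abs_mul, abs_of_pos (inv_pos.2 hs), inv_mul_le_iff₀ hs, mul_one] at h1
    rw [← sq_abs, ← Real.sq_sqrt h2.le]
    gcongr
  -- the tilt bound
  obtain ⟨C₁, hC₁, hTG⟩ := P218DY.exists_TG_le (E := E) hE c K
  obtain ⟨Mq, hMq⟩ := h.mom (2 * q)
  set C₂ := C₁ * (2 + (2 * C ^ 2 + 2) * (2 ^ q) ^ 2 * |Mq|) with hC₂
  have hC₂0 : 0 ≤ C₂ := by positivity
  have b2 : ∀ᶠ i in (U : Filter ι), TG (N i) (T i) (Wi i) 0 ≤ C₂ * D i := by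
    filter_upwards [hWi, h.sl, hpos, hdis1, hσ1, herr, hMq] with i hi hs hp hd hs1 he hm
    have e1 := hTG (Wi i) hi (N i) (T i) (H i) hs _ |Mq| q
      (fun x hx => hi.abs_df_le (df_le_of_err hi hel he) hx) (hm.trans (le_abs_self _))
    refine e1.trans ?_
    rw [hC₂, mul_assoc]
    gcongr
    have e2 : (|(|C| * ‖lam i‖ + |σ i|)| * 2 ^ q) ^ 2 ≤ (2 * C ^ 2 + 2) * (2 ^ q) ^ 2 * D i := by
      rw [mul_pow, sq_abs]
      have e3 : (|C| * ‖lam i‖ + |σ i|) ^ 2 ≤ (2 * C ^ 2 + 2) * D i := by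
        have e4 : (|C| * ‖lam i‖ + |σ i|) ^ 2 ≤ 2 * (C ^ 2 * ‖lam i‖ ^ 2) + 2 * σ i ^ 2 := by
          rw [← sq_abs C, ← sq_abs (σ i)]
          nlinarith [sq_nonneg (|C| * ‖lam i‖ - |σ i|)]
        have e5 := mul_le_mul_of_nonneg_left (hlamD i) (sq_nonneg C)
        linarith
      nlinarith [sq_nonneg ((2 : ℝ) ^ q)]
    have e6 := mul_le_mul_of_nonneg_right e2 (abs_nonneg Mq)
    have e7 := hDD i
    linarith
  -- Claim A
  have claimA : ∀ ζ : E → ℝ, ContDiff ℝ 2 ζ → HasCompactSupport ζ →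
      ∫ x, u x * jac W ζ x * rho x ∂κ = ∫ x, ζ x * e l x * rho x ∂κ := by
    intro ζ hζ2 hζc
    have hjc := continuous_jac' hW hζ2
    have hjs : HasCompactSupport (jac W ζ) := hasCompactSupport_jac hζc
    have hjpb : PB (jac W ζ) := PB.of_compact hjc hjs
    obtain ⟨-, hlim⟩ := hu (jac W ζ) hjc hjpb
    obtain ⟨C₃, hC₃, hest⟩ := P218DY.exists_jac_est (E := E) hE hc hK hζ2 hζc
    have a1 := tendsto_df h hWi hc hec hel herr (hpos.mono fun i hi => ⟨hi, hDD i⟩) hD hσ hl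
      hζ2.continuous hζc
    have a2 : Tendsto (fun i => C₃ * ((1 + C₂) * √(D i)
          + √M * √(dis (N i) (T i) (H i) / D i))) U (𝓝 0) := by
      have := ((hsD.const_mul (1 + C₂)).add (hsdis.const_mul √M)).const_mul C₃
      simpa using this
    have a3 : Tendsto (fun i => ∫ x, nd (D i) (Wi i) x * jac (Wi i) ζ x * rho x ∂(N i)
        - (√(D i))⁻¹ * ∫ x, ζ x * df (Wi i) x * rho x ∂(N i)) U (𝓝 0) := by
      refine squeeze_zero_norm' ?_ a2
      filter_upwards [hWi, h.sl, hpos, hM', b2] with i hi hs hp hm' hb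
      have e1 := hest (Wi i) hi (N i) (T i) (H i) hs
      have e2 : ∫ x, nd (D i) (Wi i) x * jac (Wi i) ζ x * rho x ∂(N i)
          = (√(D i))⁻¹ * ∫ x, Wi i x * jac (Wi i) ζ x * rho x ∂(N i) := by
        rw [← integral_const_mul]
        congr 1; ext x
        simp only [nd]; ring
      have hsp : 0 < √(D i) := Real.sqrt_pos.2 hp
      rw [e2, ← mul_sub, Real.norm_eq_abs, abs_mul, abs_of_pos (inv_pos.2 hsp)]
      have e3 := int_vel_le hs
      have e4 : √(∫ x, rho x ∂(N i)) * √(dis (N i) (T i) (H i)) ≤ √M * √(dis (N i) (T i) (H i)) := by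
        gcongr
      have e5 := hDD i
      have e6 : |∫ x, Wi i x * jac (Wi i) ζ x * rho x ∂(N i)
          - ∫ x, ζ x * df (Wi i) x * rho x ∂(N i)|
          ≤ C₃ * ((1 + C₂) * D i + √M * √(dis (N i) (T i) (H i))) :=
        e1.trans (mul_le_mul_of_nonneg_left (by linarith) hC₃)
      refine (mul_le_mul_of_nonneg_left e6 (inv_pos.2 hsp).le).trans (le_of_eq ?_)
      rw [Real.sqrt_div dis_nonneg]
      set s := √(D i) with hs
      have e8 : D i = s ^ 2 := (Real.sq_sqrt hp.le).symm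
      rw [e8]
      field_simp
    obtain ⟨B, hB, hb0, -, hb2⟩ := exists_bounds2 hζ2 hζc
    obtain ⟨R, hR0, hR⟩ := exists_radius hζc
    have a4 : Tendsto (fun i => ∫ x, nd (D i) (Wi i) x * jac W ζ x * rho x ∂(N i)
        - ∫ x, nd (D i) (Wi i) x * jac (Wi i) ζ x * rho x ∂(N i)) U (𝓝 0) := by
      rw [Metric.tendsto_nhds]
      intro ε hε
      set A := 2 * B + 2 * Module.finrank ℝ E * K * B with hA
      have hA0 : 0 ≤ A := by positivity
      have hε' : 0 < ε / (2 * (A + 1) * (√M + 1)) := by positivity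
      filter_upwards [hconv R _ hε', hWi, h.sl, hpos, hM'] with i h1 hi hs hp h3
      rw [dist_zero_right, Real.norm_eq_abs]
      refine (nd_diff hs hi hp (hDD i) h3 hjc hjpb (continuous_jac' hi hζ2)
        (PB.of_compact (continuous_jac' hi hζ2) (hasCompactSupport_jac hζc))
        (jac_close hW hi hB hε'.le hb0 hb2 hR h1) (by positivity)).trans_lt ?_
      have e5 : 0 ≤ √M := Real.sqrt_nonneg _
      rw [← hA, ← mul_div_assoc, div_mul_eq_mul_div, div_lt_iff₀ (by positivity)]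
      nlinarith [mul_nonneg hA0 e5, mul_pos hε hε, mul_nonneg hε.le hA0, mul_nonneg hε.le e5,
        mul_nonneg hε.le (mul_nonneg hA0 e5)]
    have a5 := (a4.add a3).add a1
    have h1 : Tendsto (fun i => ∫ x, nd (D i) (Wi i) x * jac W ζ x * rho x ∂(N i)) U
        (𝓝 (∫ x, ζ x * e l x * rho x ∂κ)) := by
      simpa using a5
    rw [← tendsto_nhds_unique hlim h1]
    congr 1; ext x; ring
  have claimB : ∀ z ∈ Z, ∫ x, z x * u x * rho x ∂κ = 0 := by
    intro z hz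
    obtain ⟨-, h1⟩ := hu z (hZc z hz).1 (hZc z hz).2
    refine tendsto_nhds_unique h1 (tendsto_const_nhds.congr' ?_)
    filter_upwards [hZ z hz] with i hi
    have e2 : ∫ x, nd (D i) (Wi i) x * z x * rho x ∂(N i)
        = (√(D i))⁻¹ * ∫ x, Wi i x * z x * rho x ∂(N i) := by
      rw [← integral_const_mul]
      congr 1; ext x
      simp only [nd]; ring
    rw [e2, hi, mul_zero]
  obtain ⟨hu0, hl0⟩ := hnd u l hum hu2 claimA claimB
  have hwlim : ∀ f : E → ℝ, Continuous f → PB f →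
      Tendsto (fun i => ∫ x, nd (D i) (Wi i) x * f x * rho x ∂(N i)) U (𝓝 0) := by
    intro f hf hfb
    obtain ⟨-, h1⟩ := hu f hf hfb
    have e : ∫ x, f x * u x * rho x ∂κ = 0 := by
      apply integral_eq_zero_of_ae
      filter_upwards [hu0] with x hx
      simp [hx]
    rwa [e] at h1
  -- bounds for the strong compactness theorem
  have hD1' : ∀ᶠ i in (U : Filter ι), D i ≤ 1 := hD.eventually_le_const (by norm_num)
  set C₄ := 1 + 4 * m + 32 * C₂ + 8 * K ^ 2 with hC₄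
  have hC₄0 : 0 ≤ C₄ := by positivity
  have b1 : ∀ᶠ i in (U : Filter ι), DD (N i) (Wi i) 1 / D i ≤ C₄ := by
    filter_upwards [hWi, h.sl, hpos, hdis1, b2] with i hi hs hp hd hb
    have e := DD_one_le hi hs
    rw [div_le_iff₀ hp]
    have e1 : (1 + 4 * (m : ℝ)) * DD (N i) (Wi i) 0 ≤ (1 + 4 * m) * D i := by
      gcongr; exact hDD i
    have e2 : 8 * K ^ 2 * dis (N i) (T i) (H i) ≤ 8 * K ^ 2 * D i := by gcongr
    linarith
  have b3 : ∀ᶠ i in (U : Filter ι), VW (N i) (T i) (H i) (Wi i) 0 / D i ≤ K ^ 2 := by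
    filter_upwards [hWi, h.sl, hpos, hdis1] with i hi hs hp hd
    have e := hi.VW_zero_le hs
    rw [div_le_iff₀ hp]
    nlinarith [sq_nonneg K]
  obtain ⟨M₂, hM₂⟩ := h.mom 2
  have hbd : ∀ R : ℝ, ∃ C : ℝ, ∀ᶠ i in (U : Filter ι), ∫ x in closedBall (0 : E) R,
      (nd (D i) (Wi i) x ^ 2 + ‖proj (T i x) (grad (nd (D i) (Wi i)) x)‖ ^ 2 + ‖H i x‖ ^ 2
        + nd (D i) (Wi i) x ^ 2 * ‖H i x‖) ∂(N i) ≤ C := by
    intro R
    refine ⟨Real.exp (R ^ 2 / 4) * (1 + C₂ + 2 + M₂ + K ^ 2 + C₄), ?_⟩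
    filter_upwards [hWi, h.sl, hpos, hdis1, hD1', b1, b2, b3, hM₂] with
      i hi hs hp hd hd1 c1 c2 c3 c4
    exact nd_local hs hi hp (hDD i) c1 ((div_le_iff₀ hp).2 c2) c3 c4 (hd.trans hd1) R
  have hstrong := strong_compactness U hm (h.sl.mono fun i hi => hi.toSlice) h.lim h.ratio hκ
    (w := fun i => nd (D i) (Wi i)) (hWi.mono fun i hi => contDiff_const.mul hi.pg.cd) hbd
    (fun ζ hζ hζc => by
      have h1 := hwlim (fun x => ζ x * (rho x)⁻¹)
        (hζ.mul (continuous_rho.inv₀ fun x => (rho_pos x).ne'))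
        (PB.of_compact (hζ.mul (continuous_rho.inv₀ fun x => (rho_pos x).ne')) hζc.mul_right)
      refine h1.congr fun i => ?_
      congr 1; ext x
      have := (rho_pos x).ne'
      field_simp)
  -- conclusion
  obtain ⟨n, hn⟩ := exists_nat_gt (2 * C₄)
  have hn1 : C₄ / ((n : ℝ) + 1) ^ 2 ≤ 1 / 2 := by
    rw [div_le_iff₀ (by positivity)]
    nlinarith [sq_nonneg (n : ℝ), (Nat.cast_nonneg n : (0 : ℝ) ≤ n)]
  have hfin := hstrong (fun x => cut n x * rho x) ((continuous_cut n).mul continuous_rho)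
    (cut_compact n).mul_right
  have hsm : ∀ᶠ i in (U : Filter ι), ‖(√(D i))⁻¹ • lam i‖ ≤ 1 / 2 := by
    rw [hl0] at hl
    exact hl.norm.eventually_le_const (by simp)
  have hlow : ∀ᶠ i in (U : Filter ι),
      1 / 4 ≤ ∫ x, cut n x * rho x * nd (D i) (Wi i) x ^ 2 ∂(N i) := by
    filter_upwards [h.sl, hWi, hpos, b1, hsm] with i hs hi hp c1 c2
    refine le_trans ?_ (nd_low hs hi hp (hDD i) c1 n hn1)
    have hsp : 0 < √(D i) := Real.sqrt_pos.2 hp
    rw [norm_smul, norm_inv, Real.norm_of_nonneg hsp.le, inv_mul_le_iff₀ hsp] at c2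
    have c3 : ‖lam i‖ ^ 2 ≤ (√(D i) * (1 / 2)) ^ 2 := by gcongr
    rw [mul_pow, Real.sq_sqrt hp.le] at c3
    have c4 := hDe i
    have c5 : 3 / 4 ≤ DD (N i) (Wi i) 0 / D i := by
      rw [le_div_iff₀ hp]; linarith
    linarith
  have hcontra := ge_of_tendsto hfin hlow
  norm_num at hcontra

end Vale.Agent.P218DY
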