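import Vale.Agent.P218.H313.Defs
import Vale.Agent.P218.H63.Defs

/-! Uniqueness of tangent flows from a Lojasiewicz inequality on a finite-dimensional family of
almost self-shrinkers: definitions. -/

open MeasureTheory Set Filter Topology Metric
open scoped ENNReal NNReal RealInnerProductSpace

namespace Vale.Agent.P218DY

open Vale.Agent.P214 (proj IsApproxTangent)
open Vale.Agent.P218.H63 (lap stab gaussArea)
open Vale.Agent.P218.H313 (grad tr ker vel)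

variable {E : Type*} [NormedAddCommGroup E] [InnerProductSpace ℝ E] [FiniteDimensional ℝ E]

/-- `{w = 0}` is a hypersurface with a uniform tubular neighbourhood `{|w| < δ}`, in which `w` is
a signed distance function with Hessian bounded by `C`; its support function is bounded by `C`. -/
structure IsTube (w : E → ℝ) (δ C : ℝ) : Prop where
  pos : 0 < δ
  smooth : ContDiff ℝ 2 w
  norm_grad : ∀ x, |w x| < δ → ‖gradient w x‖ = 1
  hess_le : ∀ x, |w x| < δ → ‖fderiv ℝ (gradient w) x‖ ≤ C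
  supp_le : ∀ x, w x = 0 → |⟪x, gradient w x⟫| ≤ C

/-- the defect in the self-shrinker equation, on `{w = 0}` -/
noncomputable def defect (w : E → ℝ) (x : E) : ℝ := lap w x - ⟪x, gradient w x⟫ / 2

/-- A function `W` which near its zero set is the signed distance to it, with bounds that are
uniform on `E`. -/
structure TubeG (W : E → ℝ) (c K : ℝ) : Prop where
  cpos : 0 < c
  K1 : 1 ≤ K
  cK : c * K ≤ 1 / 4
  smooth : ContDiff ℝ 2 W
  b0 : ∀ x, |W x| ≤ K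
  b1 : ∀ x, ‖grad W x‖ ≤ 1
  b2 : ∀ x, ‖fderiv ℝ (grad W) x‖ ≤ K
  bx : ∀ x, |⟪x, grad W x⟫| ≤ K
  eik : ∀ x, |W x| < c → ‖grad W x‖ = 1

/-- the foot point -/
noncomputable def ft (W : E → ℝ) (x : E) : E := x - W x • grad W x

/-- the defect in the self-shrinker equation -/
noncomputable def dfc (W : E → ℝ) (y : E) : ℝ :=
  tr (fderiv ℝ (grad W) y) - 1 / 2 * ⟪y, grad W y⟫

/-- the defect at the foot point -/
noncomputable def df (W : E → ℝ) (x : E) : ℝ := dfc W (ft W x)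

/-- the tilt of the plane `T x` relative to the level sets of `W` -/
noncomputable def tau (T : E → Submodule ℝ E) (W : E → ℝ) (x : E) : ℝ :=
  ‖proj (T x) (grad W x)‖

variable [MeasurableSpace E] [BorelSpace E]

/-- the area measure of `{W = 0}` -/
noncomputable def HS (m : ℕ) (W : E → ℝ) : Measure E :=
  (μH[m] : Measure E).restrict {x | W x = 0}

/-- integer multiplicities almost everywhere -/
def Intg (m : ℕ) (μ : Measure E) (T : E → Submodule ℝ E) : Prop :=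
  ∀ᵐ x ∂μ, ∃ q : ℕ, 1 ≤ q ∧ IsApproxTangent m μ x q (T x)

/-- mass ratio bound -/
def Ratio (m : ℕ) (μ : Measure E) (CR : ℝ) : Prop :=
  ∀ (x : E) (r : ℝ), 0 < r → r ≤ 1 → μ.real (closedBall x r) ≤ CR * r ^ m

/-- the density ratio with the kernel `ker` -/
noncomputable def th (m : ℕ) (μ : Measure E) (x : E) (r : ℝ) : ℝ :=
  (∫ y, ker (r⁻¹ • (y - x)) ∂μ) / r ^ m

/-- the energy in the ball of radius `R`, without the Gaussian weight -/
noncomputable def en (μ : Measure E) (T : E → Submodule ℝ E) (H : E → E) (W : E → ℝ) (R : ℝ) :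
    ℝ :=
  ∫ x in closedBall (0 : E) R, (W x ^ 2 + tau T W x ^ 2 + ‖vel T H x‖ ^ 2) ∂μ

variable {P : Type*} [NormedAddCommGroup P] [NormedSpace ℝ P]
variable {Λ : Type*} [NormedAddCommGroup Λ] [NormedSpace ℝ Λ]

/-- A family `S_a = {w_a = 0}`, `a ∈ P` near `0`, of hypersurfaces with a uniform tube, which is
continuous in `a`, differentiable at `a = 0` with velocities `v b`, whose defect in the self-shrinker
equation is `e (lam a)` up to `o(|lam a|)`, and on which the Gaussian area satisfies a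
Lojasiewicz inequality. -/
structure IsLojFamily (m : ℕ) (w : P → E → ℝ) (v : P →ₗ[ℝ] (E → ℝ)) (e : Λ →ₗ[ℝ] (E → ℝ))
    (lam : P → Λ) (δ C : ℝ) (q : ℕ) : Prop where
  tube : ∀ᶠ a in 𝓝 (0 : P), IsTube (w a) δ C
  cont : ∀ R : ℝ, ∀ᶠ a₀ in 𝓝 (0 : P), ∀ ε : ℝ, 0 < ε → ∀ᶠ a in 𝓝 a₀, ∀ x, ‖x‖ ≤ R →
    |w a x - w a₀ x| ≤ ε
  diff : ∀ R ε : ℝ, 0 < ε → ∀ᶠ a in 𝓝 (0 : P), ∀ x, ‖x‖ ≤ R →
    |w a x - w 0 x - v a x| ≤ ε * ‖a‖
  conv : ∀ R ε : ℝ, 0 < ε → ∀ᶠ a in 𝓝 (0 : P), ∀ x, ‖x‖ ≤ R →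
    ‖gradient (w a) x - gradient (w 0) x‖ ≤ ε ∧
      ‖fderiv ℝ (gradient (w a)) x - fderiv ℝ (gradient (w 0)) x‖ ≤ ε
  v_cont : ∀ b, Continuous (v b)
  e_cont : ∀ l, Continuous (e l)
  e_le : ∀ l x, |e l x| ≤ C * (1 + ‖x‖) ^ q * ‖l‖
  lam_zero : Tendsto lam (𝓝 0) (𝓝 0)
  err : ∀ ε : ℝ, 0 < ε → ∀ᶠ a in 𝓝 (0 : P), ∀ x, w a x = 0 →
    |defect (w a) x - e (lam a) x| ≤ ε * ‖lam a‖ * (1 + ‖x‖) ^ q
  loj : ∃ γ C' : ℝ, 1 < γ ∧ ∀ᶠ a in 𝓝 (0 : P), gaussArea m {x | w a x = 0} univ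
    ≤ gaussArea m {x | w 0 x = 0} univ + ENNReal.ofReal (C' * ‖lam a‖ ^ γ)
  inj : ∀ b, (∀ x, w 0 x = 0 → v b x = 0) → b = 0
  indep : ∀ l, (∀ x, w 0 x = 0 → e l x = 0) → l = 0
  nd : ∀ (u : E → ℝ) (l : Λ), MemLp u 2 (gaussArea m {x | w 0 x = 0}) →
    (∀ η : E → ℝ, ContDiff ℝ 2 η → HasCompactSupport η →
      ∫ x, u x * stab (w 0) η x ∂(gaussArea m {x | w 0 x = 0})
        = ∫ x, e l x * η x ∂(gaussArea m {x | w 0 x = 0})) →
    ∃ b, u =ᵐ[gaussArea m {x | w 0 x = 0}] v b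

end Vale.Agent.P218DY
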