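import Vale.Agent.P218DY.Defs

/-! A sequence of families of almost self-shrinkers (the index is a truncation level). -/

open MeasureTheory Set Filter Topology Metric
open scoped ENNReal NNReal RealInnerProductSpace

namespace Vale.Agent.P218DY

open Vale.Agent.P218.H63 (lap stab gaussArea)

variable {E : Type*} [NormedAddCommGroup E] [InnerProductSpace ℝ E] [FiniteDimensional ℝ E]
  [MeasurableSpace E] [BorelSpace E]
variable {P : Type*} [NormedAddCommGroup P] [NormedSpace ℝ P]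
variable {Λ : Type*} [NormedAddCommGroup Λ] [NormedSpace ℝ Λ]

/-- As `IsLojFamily`, for families `w n a` which depend also on `n → ∞`, with additional errors
`η n → 0`; all neighbourhoods of `a = 0` are uniform in `n`. The model is `{w₀ = 0}`. -/
structure IsLojSeq (m : ℕ) (w₀ : E → ℝ) (w : ℕ → P → E → ℝ) (v : P →ₗ[ℝ] (E → ℝ))
    (e : Λ →ₗ[ℝ] (E → ℝ)) (lam : ℕ → P → Λ) (η : ℕ → ℝ) (δ C : ℝ) (q : ℕ) : Prop where
  tube0 : IsTube w₀ δ C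
  tube : ∀ᶠ p : ℕ × P in atTop ×ˢ 𝓝 0, IsTube (w p.1 p.2) δ C
  cont : ∀ R : ℝ, ∀ᶠ p : ℕ × P in atTop ×ˢ 𝓝 0, ∀ ε : ℝ, 0 < ε → ∀ᶠ a in 𝓝 p.2, ∀ x, ‖x‖ ≤ R →
    |w p.1 a x - w p.1 p.2 x| ≤ ε
  diff : ∀ R ε : ℝ, 0 < ε → ∀ᶠ p : ℕ × P in atTop ×ˢ 𝓝 0, ∀ x, ‖x‖ ≤ R →
    |w p.1 p.2 x - w p.1 0 x - v p.2 x| ≤ ε * ‖p.2‖
  conv : ∀ R ε : ℝ, 0 < ε → ∀ᶠ p : ℕ × P in atTop ×ˢ 𝓝 0, ∀ x, ‖x‖ ≤ R →
    |w p.1 p.2 x - w₀ x| ≤ ε ∧ ‖gradient (w p.1 p.2) x - gradient w₀ x‖ ≤ ε ∧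
      ‖fderiv ℝ (gradient (w p.1 p.2)) x - fderiv ℝ (gradient w₀) x‖ ≤ ε
  v_cont : ∀ b, Continuous (v b)
  e_cont : ∀ l, Continuous (e l)
  e_le : ∀ l x, |e l x| ≤ C * (1 + ‖x‖) ^ q * ‖l‖
  eta_zero : Tendsto η atTop (𝓝 0)
  lam_zero : Tendsto (fun p : ℕ × P => lam p.1 p.2) (atTop ×ˢ 𝓝 0) (𝓝 0)
  err : ∀ ε : ℝ, 0 < ε → ∀ᶠ p : ℕ × P in atTop ×ˢ 𝓝 0, ∀ x, w p.1 p.2 x = 0 →
    |defect (w p.1 p.2) x - e (lam p.1 p.2) x| ≤ (ε * ‖lam p.1 p.2‖ + η p.1) * (1 + ‖x‖) ^ q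
  loj : ∃ γ C' : ℝ, 1 < γ ∧ ∀ᶠ p : ℕ × P in atTop ×ˢ 𝓝 0,
    gaussArea m {x | w p.1 p.2 x = 0} univ
      ≤ gaussArea m {x | w₀ x = 0} univ + ENNReal.ofReal (C' * ‖lam p.1 p.2‖ ^ γ + η p.1)
  inj : ∀ b, (∀ x, w₀ x = 0 → v b x = 0) → b = 0
  indep : ∀ l, (∀ x, w₀ x = 0 → e l x = 0) → l = 0
  nd : ∀ (u : E → ℝ) (l : Λ), MemLp u 2 (gaussArea m {x | w₀ x = 0}) →
    (∀ ζ : E → ℝ, ContDiff ℝ 2 ζ → HasCompactSupport ζ →
      ∫ x, u x * stab w₀ ζ x ∂(gaussArea m {x | w₀ x = 0})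
        = ∫ x, e l x * ζ x ∂(gaussArea m {x | w₀ x = 0})) →
    ∃ b, u =ᵐ[gaussArea m {x | w₀ x = 0}] v b

variable [FiniteDimensional ℝ P]

/-- a continuous linear family of continuous functions is bounded on bounded sets -/
lemma exists_lin_bound {v : P →ₗ[ℝ] (E → ℝ)} (hv : ∀ b, Continuous (v b)) (R : ℝ) :
    ∃ B : ℝ, 0 ≤ B ∧ ∀ b x, ‖x‖ ≤ R → |v b x| ≤ B * ‖b‖ := by
  classical
  let β := Module.finBasis ℝ P
  have h1 : ∀ i, ∃ M : ℝ, ∀ x ∈ closedBall (0 : E) R, ‖v (β i) x‖ ≤ M := fun i =>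
    (isCompact_closedBall (0 : E) R).exists_bound_of_continuousOn (hv _).continuousOn
  choose M hM using h1
  let L : Fin (Module.finrank ℝ P) → P →L[ℝ] ℝ := fun i => LinearMap.toContinuousLinearMap (β.coord i)
  refine ⟨∑ i, ‖L i‖ * |M i|, Finset.sum_nonneg fun i _ => by positivity, fun b x hx => ?_⟩
  have e : v b x = ∑ i, L i b * v (β i) x := by
    conv_lhs => rw [← β.sum_repr b]
    rw [map_sum, Finset.sum_apply]
    refine Finset.sum_congr rfl fun i _ => ?_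
    rw [map_smul]
    rfl
  rw [e, Finset.sum_mul]
  refine (Finset.abs_sum_le_sum_abs _ _).trans (Finset.sum_le_sum fun i _ => ?_)
  have h2 := (L i).le_opNorm b
  have h3 := (hM i x (by simpa using hx)).trans (le_abs_self _)
  rw [Real.norm_eq_abs] at h2 h3
  rw [abs_mul]
  calc |L i b| * |v (β i) x| ≤ (‖L i‖ * ‖b‖) * |M i| := by gcongr
    _ = _ := by ring

/-- a family is a constant sequence of families -/
theorem IsLojFamily.toSeq {m : ℕ} {w : P → E → ℝ} {v : P →ₗ[ℝ] (E → ℝ)} {e : Λ →ₗ[ℝ] (E → ℝ)}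
    {lam : P → Λ} {δ C : ℝ} {q : ℕ} (h : IsLojFamily m w v e lam δ C q) :
    IsLojSeq m (w 0) (fun _ => w) v e (fun _ => lam) (fun _ => 0) δ C q where
  tube0 := h.tube.self_of_nhds
  tube := h.tube.prod_inr atTop
  cont R := (h.cont R).prod_inr atTop
  diff R ε hε := (h.diff R ε hε).prod_inr atTop
  conv R ε hε := by
    obtain ⟨B, hB, hb⟩ := exists_lin_bound h.v_cont R
    have h2 := h.diff R 1 one_pos
    have h3 : ∀ᶠ a in 𝓝 (0 : P), (B + 1) * ‖a‖ ≤ ε := by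
      have : Tendsto (fun a : P => (B + 1) * ‖a‖) (𝓝 0) (𝓝 0) :=
        (continuous_const.mul continuous_norm).tendsto' _ _ (by simp)
      exact this.eventually_le_const hε
    have h4 : ∀ᶠ a in 𝓝 (0 : P), ∀ x, ‖x‖ ≤ R → |w a x - w 0 x| ≤ ε ∧
        ‖gradient (w a) x - gradient (w 0) x‖ ≤ ε ∧
        ‖fderiv ℝ (gradient (w a)) x - fderiv ℝ (gradient (w 0)) x‖ ≤ ε := by
      filter_upwards [h2, h3, h.conv R ε hε] with a a2 a3 a4 x hx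
      refine ⟨?_, a4 x hx⟩
      have b1 := a2 x hx
      have b2 := hb a x hx
      rw [one_mul] at b1
      have b3 := abs_add_le (w a x - w 0 x - v a x) (v a x)
      rw [sub_add_cancel] at b3
      linarith
    exact h4.prod_inr atTop
  v_cont := h.v_cont
  e_cont := h.e_cont
  e_le := h.e_le
  eta_zero := tendsto_const_nhds
  lam_zero := h.lam_zero.comp tendsto_snd
  err ε hε := by
    simpa only [add_zero] using (h.err ε hε).prod_inr atTop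
  loj := by
    obtain ⟨γ, C', h1, h2⟩ := h.loj
    exact ⟨γ, C', h1, by simpa only [add_zero] using h2.prod_inr atTop⟩
  inj := h.inj
  indep := h.indep
  nd := h.nd

end Vale.Agent.P218DY
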