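import Vale.Agent.P218DY.Loj
import Vale.Agent.P218GP.Mass
import Vale.Agent.P218GE.RFI
import Vale.Agent.P218LD.Conv
import Vale.Agent.P218.H313.Final

/-! Uniqueness of the tangent flow from a Lojasiewicz inequality on finite-dimensional families of
almost self-shrinkers. -/

open MeasureTheory Set Filter Topology Metric
open scoped ENNReal NNReal RealInnerProductSpace

namespace Vale.Agent.P218DY

open Vale.Agent.P214 (proj divAlong)
open Vale.Agent.P218 Vale.Agent.P218.H313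
open Vale.Agent.P218.H63 (gaussArea)
open Vale.Agent.P218.H552 (NN)

set_option linter.unusedSectionVars false
set_option linter.unusedVariables false

variable {E : Type*} [NormedAddCommGroup E] [InnerProductSpace ℝ E] [FiniteDimensional ℝ E]
  [MeasurableSpace E] [BorelSpace E]
variable {m : ℕ} {c K : ℝ}
variable {P : Type*} [NormedAddCommGroup P] [NormedSpace ℝ P] [FiniteDimensional ℝ P]
variable {Λ : Type*} [NormedAddCommGroup Λ] [NormedSpace ℝ Λ] [FiniteDimensional ℝ Λ]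
variable {W₀ : E → ℝ} {V : ℕ → P → E → ℝ} {V' : P →ₗ[ℝ] (E → ℝ)} {e : Λ →ₗ[ℝ] (E → ℝ)}
  {lam : ℕ → P → Λ} {η : ℕ → ℝ} {C : ℝ} {q : ℕ}

lemma gaussArea_univ {W : E → ℝ} (h : Integrable (rho : E → ℝ) (HS m W)) :
    gaussArea m {x | W x = 0} univ = ENNReal.ofReal (FA (HS m W)) := by
  unfold gaussArea FA
  rw [withDensity_apply _ MeasurableSet.univ, Measure.restrict_univ,
    ofReal_integral_eq_lintegral_ofReal h (Eventually.of_forall fun x => (rho_pos x).le)]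
  rfl

lemma arith_Q {D d t M C₁ C₃ G L s : ℝ} (hD : 0 ≤ D) (hd : 0 ≤ d) (ht : 0 ≤ t) (hM : 0 ≤ M)
    (hC₃ : 0 ≤ C₃) (hG : 0 ≤ G) (h1 : D + L ^ 2 + s ^ 2 ≤ C₁ * (d + t))
    (h2 : G ≤ C₃ * (D + d + s ^ 2 * M)) :
    D + G + d + s ^ 2 ≤ (1 + C₃ * (1 + M)) * (C₁ + 1) * (d + t) ∧
      L ^ 2 ≤ (1 + C₃ * (1 + M)) * (C₁ + 1) * (d + t) := by
  set X := D + L ^ 2 + s ^ 2 + d with hX
  have hX1 : X ≤ (C₁ + 1) * (d + t) := by linarith
  have hs := sq_nonneg s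
  have hL := sq_nonneg L
  have h3 : s ^ 2 * M ≤ X * M := mul_le_mul_of_nonneg_right (by linarith) hM
  have h4 : D + d + s ^ 2 * M ≤ (1 + M) * X := by linarith
  have h5 : (1 + C₃ * (1 + M)) * X ≤ (1 + C₃ * (1 + M)) * (C₁ + 1) * (d + t) := by
    rw [mul_assoc]
    exact mul_le_mul_of_nonneg_left hX1 (by positivity)
  have h6 := mul_le_mul_of_nonneg_left h4 hC₃
  have h7 : 0 ≤ C₃ * ((1 + M) * X) := by positivity
  constructor <;> linarith

section filter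

variable {ι : Type*} {l : Filter ι} {N : ι → Measure E}
  {T : ι → E → Submodule ℝ E} {H : ι → E → E} {n : ι → ℕ}

/-- the Lojasiewicz inequality with the errors of the family -/
theorem GSeq.loj_err (hm : 0 < m) (hE : Module.finrank ℝ E = m + 1)
    (G : GSeq m W₀ V V' e lam η c K C q) (h : ConvF l m N T H (HS m W₀))
    (hn : Tendsto n l atTop) {t : ι → ℝ} (ht : ∀ i, 0 < t i) (ht0 : Tendsto t l (𝓝 0))
    (hη : ∀ i, η (n i) ^ 2 ≤ t i) :
    ∃ (A B β : ℝ), 0 ≤ B ∧ 1 / 2 < β ∧ ∀ᶠ i in l, Intg m (N i) (T i) →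
      FA (N i) - FA (HS m W₀) ≤ A * (B * (dis (N i) (T i) (H i) + t i)) ^ β + |η (n i)| := by
  rcases l.eq_or_neBot with rfl | hne
  · exact ⟨0, 0, 1, le_rfl, by norm_num, eventually_bot⟩
  obtain ⟨a, σ, C₁, hC₁, ha, hst⟩ := G.static hm hE h hn ht ht0 hη
  have hna : Tendsto (fun i => (n i, a i)) l (atTop ×ˢ 𝓝 0) := hn.prodMk ha
  obtain ⟨CR, hCR⟩ := h.ratio
  obtain ⟨M, hM⟩ := h.mom (2 * q)
  obtain ⟨R₀, hR₀, r₂, hr₂, hmb⟩ := mass_bound (E := E) hm hE c K CR q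
  have hom := om_pos m
  obtain ⟨r₀, hr₀, hth⟩ := th_HS_le (E := E) (K := K) (b := 9 / 8 * om m) hE (by linarith)
  set r₁ := min (min r₂ r₀) (1 / 2) with hr₁
  have hr₁0 : 0 < r₁ := lt_min (lt_min hr₂ hr₀) (by norm_num)
  obtain ⟨Q₀, hQ₀, C₂, hC₂, hmb⟩ := hmb r₁ hr₁0 ((min_le_left _ _).trans (min_le_left _ _))
  obtain ⟨C₃, hC₃, hTG⟩ := exists_TG_le (E := E) hE c K
  obtain ⟨γ, C', hγ, hloj⟩ := G.loj
  have hcore : ∀ᶠ i in l, ∀ x, V (n i) (a i) x = 0 → ‖x‖ ≤ R₀ →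
      th m (N i) x r₁ ≤ 5 / 4 * om m := by
    refine mem_iff_ultrafilter.2 fun U hU => ?_
    exact core_density (h.conv hU) G.tube0.cont
      (fun R ε hε => hU (hna.eventually (G.conv0 R ε hε))) hr₁0 (min_le_right _ _)
      (b := 9 / 8 * om m) (by linarith)
      (fun x hx => hth W₀ c G.tube0 x hx r₁ hr₁0 ((min_le_left _ _).trans (min_le_right _ _))) R₀
  have hFA : Tendsto (fun i => FA (N i)) l (𝓝 (FA (HS m W₀))) := by
    rw [tendsto_iff_ultrafilter]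
    intro U hU
    have := (h.conv hU).lim_PB (f := fun _ => 1) continuous_const (PB.const 1)
    simp only [one_mul] at this
    exact this
  have hint : Integrable (rho : E → ℝ) (HS m W₀) := by
    simpa using (h.conv (Ultrafilter.of_le l)).mom_lim 0
  set β := min (3 / 5 : ℝ) (γ / 2) with hβ
  have hβ0 : 1 / 2 < β := lt_min (by norm_num) (by linarith)
  set Q₁ := min Q₀ 1 with hQ₁
  have hQ₁0 : 0 < Q₁ := lt_min hQ₀ one_pos
  set M₁ := (2 ^ q) ^ 2 * |M| with hM₁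
  have hM₁0 : 0 ≤ M₁ := by positivity
  refine ⟨|C'| + C₂ + 1, (1 + C₃ * (1 + M₁)) * (C₁ + 1), β, by positivity, hβ0, ?_⟩
  have hsm : ∀ᶠ i in l, FA (N i) - FA (HS m W₀) ≤ Q₁ ^ β := by
    have h1 := hFA.sub_const (FA (HS m W₀))
    rw [sub_self] at h1
    exact h1.eventually_le_const (Real.rpow_pos_of_pos hQ₁0 β)
  filter_upwards [hst, hCR, hM, hcore, hsm, h.sl, hna.eventually G.tube, hna.eventually hloj]
    with i h1 h2 h3 h4 h5 hs hW h6 hI
  set d := dis (N i) (T i) (H i) with hd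
  have hd0 : 0 ≤ d := dis_nonneg
  have hti := ht i
  set Q := (1 + C₃ * (1 + M₁)) * (C₁ + 1) * (d + t i) with hQ
  have hQ0 : 0 < Q := by positivity
  have hQβ : 0 ≤ Q ^ β := Real.rpow_nonneg hQ0.le _
  have hCQ : 0 ≤ |C'| * Q ^ β := by positivity
  have hCQ2 : 0 ≤ C₂ * Q ^ β := by positivity
  have hηi := abs_nonneg (η (n i))
  by_cases hQQ : Q ≤ Q₁
  swap
  · have h7 : Q₁ ^ β ≤ Q ^ β :=
      Real.rpow_le_rpow hQ₁0.le (not_le.1 hQQ).le (by linarith)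
    linarith
  have hQ1 : Q ≤ 1 := hQQ.trans (min_le_right _ _)
  set D := DD (N i) (V (n i) (a i)) 0 with hD
  have hD0 : 0 ≤ D := DD_nonneg 0
  set L := ‖lam (n i) (a i)‖ with hL
  have hL0 : 0 ≤ L := norm_nonneg _
  have h7 := hTG _ hW _ _ _ hs (|σ i| * 2 ^ q) |M| q (fun x hx => hW.abs_df_le h1.1 hx)
    (h3.trans (le_abs_self M))
  have h8 : (|σ i| * 2 ^ q) ^ 2 * |M| = σ i ^ 2 * M₁ := by
    rw [mul_pow, sq_abs, hM₁]; ring
  rw [h8] at h7
  obtain ⟨h9, h10⟩ := arith_Q hD0 hd0 hti.le hM₁0 hC₃ (TG_nonneg 0) h1.2 h7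
  have hL2 := sq_nonneg L
  have h12 := hmb _ _ _ _ (σ i) Q hW hs hI h2 h1.1 h4 h9 (hQQ.trans (min_le_left _ _))
  have h13 : C' * L ^ γ ≤ |C'| * Q ^ β := by
    refine (le_abs_self _).trans ?_
    rw [abs_mul, abs_of_nonneg (Real.rpow_nonneg hL0 _)]
    refine mul_le_mul_of_nonneg_left ?_ (abs_nonneg _)
    calc L ^ γ = (L ^ 2) ^ (γ / 2) := by
          rw [← Real.rpow_natCast, ← Real.rpow_mul hL0]
          congr 1; push_cast; ring
      _ ≤ Q ^ (γ / 2) := Real.rpow_le_rpow hL2 h10 (by linarith)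
      _ ≤ Q ^ β := Real.rpow_le_rpow_of_exponent_ge hQ0 hQ1 (min_le_right _ _)
  have h14 : C₂ * Q ^ (3 / 5 : ℝ) ≤ C₂ * Q ^ β :=
    mul_le_mul_of_nonneg_left (Real.rpow_le_rpow_of_exponent_ge hQ0 hQ1 (min_le_left _ _)) hC₂
  have hF0 : 0 ≤ FA (HS m W₀) := RF.FA_nonneg _
  have h15 : ENNReal.ofReal (FA (N i))
      ≤ ENNReal.ofReal (FA (HS m W₀) + (|C'| * Q ^ β + |η (n i)|) + C₂ * Q ^ β) := by
    rw [ENNReal.ofReal_add (by positivity) hCQ2, ENNReal.ofReal_add hF0 (by positivity),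
      ← gaussArea_univ hint]
    refine h12.trans (add_le_add (h6.trans (add_le_add le_rfl ?_)) (ENNReal.ofReal_le_ofReal h14))
    exact ENNReal.ofReal_le_ofReal (add_le_add h13 (le_abs_self _))
  rw [ENNReal.ofReal_le_ofReal_iff (by positivity)] at h15
  linarith

end filter

variable {N : ℝ → Measure E} {T : ℝ → E → Submodule ℝ E} {H : ℝ → E → E} {s₀ : ℝ}

/-- **the Lojasiewicz inequality** at good times near the model -/
theorem GSeq.loj_near (hm : 0 < m) (hE : Module.finrank ℝ E = m + 1)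
    (G : GSeq m W₀ V V' e lam η c K C q) (h : RF m N T H s₀) :
    ∃ A β : ℝ, 1 / 2 < β ∧ ∀ᶠ s in nearF m N T H (HS m W₀), Intg m (N s) (T s) →
      FA (N s) - FA (HS m W₀) ≤ A * dis (N s) (T s) (H s) ^ β := by
  have hlf := locFin_HS (m := m) hE G.tube0
  set l := nearF m N T H (HS m W₀) with hl
  have hs₀ : ∀ᶠ s in l, s₀ ≤ s := nearF_atTop (eventually_ge_atTop s₀)
  have hc : ConvF (l ×ˢ (atTop : Filter ℕ)) m (fun i => N i.1) (fun i => T i.1) (fun i => H i.1)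
      (HS m W₀) := by
    refine ⟨hlf, nearF_sl.prod_inl _, fun p => ?_, ?_,
      fun φ h1 h2 => (nearF_lim h1 h2).comp tendsto_fst⟩
    · obtain ⟨M, hM⟩ := h.moment p
      exact ⟨M, (hs₀.mono fun s hs => (hM s hs).2).prod_inl _⟩
    · obtain ⟨M, hM⟩ := h.ratio
      exact ⟨M, (hs₀.mono fun s hs => hM s hs).prod_inl _⟩
  have ht0 : Tendsto (fun k : ℕ => η k ^ 2 + 1 / ((k : ℝ) + 1)) atTop (𝓝 0) := by
    have := (G.eta_zero.pow 2).add (tendsto_one_div_add_atTop_nhds_zero_nat (𝕜 := ℝ))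
    simpa using this
  obtain ⟨A, B, β, hB, hβ, hev⟩ := G.loj_err hm hE hc (n := Prod.snd) tendsto_snd
    (t := fun i => η i.2 ^ 2 + 1 / ((i.2 : ℝ) + 1)) (fun i => by positivity)
    (ht0.comp tendsto_snd) (fun i => le_add_of_nonneg_right (by positivity))
  refine ⟨A * B ^ β, β, hβ, ?_⟩
  filter_upwards [hev.curry] with s hs hI
  have hd0 : 0 ≤ dis (N s) (T s) (H s) := dis_nonneg
  have l1 : Tendsto (fun k : ℕ => A * (B * (dis (N s) (T s) (H s)
      + (η k ^ 2 + 1 / ((k : ℝ) + 1)))) ^ β + |η k|) atTop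
      (𝓝 (A * (B * (dis (N s) (T s) (H s) + 0)) ^ β + |0|)) :=
    ((((ht0.const_add _).const_mul B).rpow_const (Or.inr (by linarith))).const_mul A).add
      G.eta_zero.abs
  rw [add_zero, abs_zero, add_zero, Real.mul_rpow hB hd0, ← mul_assoc] at l1
  exact ge_of_tendsto l1 (hs.mono fun k hk => hk hI)

/-- uniqueness of the tangent flow, for the truncated families -/
theorem GSeq.unique (hm : 0 < m) (hE : Module.finrank ℝ E = m + 1)
    (G : GSeq m W₀ V V' e lam η c K C q) {μ : ℝ → Measure E} (hμ : IsIntegralBrakkeFlow m μ)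
    (h0 : μ 0 univ < ⊤) (x₀ : E) {t₀ : ℝ} (ht : 0 < t₀)
    (hκ : HS m W₀ ∈ tangentSlices m μ x₀ t₀) : TangentFlowUnique m μ x₀ t₀ := by
  obtain ⟨T, H, s₀, hRF, hI⟩ := P218GE.exists_RF_intg hμ h0 x₀ ht
  obtain ⟨T', H', hB, -⟩ := A1.exists_BF_slice hμ
  have hslow := H552.slow_NN hB h0 x₀ ht
  rw [H552.tangentSlices_eq hB h0 x₀ ht] at hκ
  rw [unique_iff hB h0 x₀ ht, H552.tangentSlices_eq hB h0 x₀ ht]
  obtain ⟨hlf, τ, hτ, hτκ⟩ := hκ
  set s₁ := max s₀ (2 * H552.tau0 t₀) with hs₁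
  have hslow' : Slow (fun s => NN m μ x₀ t₀ (s / 2)) s₁ := by
    constructor
    · intro K hK
      obtain ⟨C, hC⟩ := hslow.bdd K hK
      refine ⟨C, fun τ hτ => hC _ ?_⟩
      have := (le_max_right s₀ (2 * H552.tau0 t₀)).trans hτ
      linarith
    · intro φ hφ hφc h hh ε hε
      obtain ⟨S, hS0, hS⟩ := hslow.slow φ hφ hφc (h / 2) (half_pos hh) ε hε
      refine ⟨max s₁ (2 * S), le_max_left _ _, fun τ τ' h1 h2 h3 => hS _ _ ?_ ?_ ?_⟩
      · have := (le_max_right s₁ (2 * S)).trans h1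
        linarith
      · linarith
      · linarith
  have hseq : ∃ τ : ℕ → ℝ, Tendsto τ atTop atTop ∧
      WeakTendsto (fun i => NN m μ x₀ t₀ (τ i / 2)) (HS m W₀) := by
    refine ⟨fun i => 2 * τ i, hτ.const_mul_atTop two_pos, ?_⟩
    have e : ∀ i, 2 * τ i / 2 = τ i := fun i => by ring
    simp_rw [e]
    exact hτκ
  refine limitSet_subsingleton hslow fun φ hφ hφc => ?_
  have hRF' := hRF.later (le_max_left s₀ (2 * H552.tau0 t₀))
  obtain ⟨A, β, hβ, hloj⟩ := G.loj_near hm hE hRF'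
  obtain ⟨L, hL⟩ := converge_of_loj hRF' hslow' hseq
    (I := fun s => Intg m (NN m μ x₀ t₀ (s / 2)) (T s))
    (hI.mono fun s h1 h2 => h1 ((le_max_left _ _).trans h2)) hβ hloj hφ hφc
  refine ⟨L, ?_⟩
  have h2 := hL.comp (tendsto_id.const_mul_atTop (two_pos : (0 : ℝ) < 2))
  refine h2.congr fun τ => ?_
  simp only [Function.comp, id]
  have e : 2 * τ / 2 = τ := by ring
  rw [e]

/-- **Uniqueness of the tangent flow** from a sequence of Lojasiewicz families. -/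
theorem unique_of_lojSeq (hm : 0 < m) (hE : Module.finrank ℝ E = m + 1) {w₀ : E → ℝ}
    {w : ℕ → P → E → ℝ} {v : P →ₗ[ℝ] (E → ℝ)} {δ : ℝ}
    (hF : IsLojSeq m w₀ w v e lam η δ C q) {μ : ℝ → Measure E} (hμ : IsIntegralBrakkeFlow m μ)
    (h0 : μ 0 univ < ⊤) (x₀ : E) {t₀ : ℝ} (ht : 0 < t₀)
    (hκ : (μH[m] : Measure E).restrict {x | w₀ x = 0} ∈ tangentSlices m μ x₀ t₀) :
    TangentFlowUnique m μ x₀ t₀ := by
  obtain ⟨W₀, V, V', c, K, G, hS⟩ := hF.exists_gseq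
  refine G.unique hm hE hμ h0 x₀ ht ?_
  unfold HS
  rwa [hS]

/-- **Uniqueness of the tangent flow** from a Lojasiewicz family. -/
theorem unique_of_loj (hm : 0 < m) (hE : Module.finrank ℝ E = m + 1)
    {w : P → E → ℝ} {v : P →ₗ[ℝ] (E → ℝ)} {lam : P → Λ} {δ : ℝ}
    (hF : IsLojFamily m w v e lam δ C q) {μ : ℝ → Measure E} (hμ : IsIntegralBrakkeFlow m μ)
    (h0 : μ 0 univ < ⊤) (x₀ : E) {t₀ : ℝ} (ht : 0 < t₀)
    (hκ : (μH[m] : Measure E).restrict {x | w 0 x = 0} ∈ tangentSlices m μ x₀ t₀) :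
    TangentFlowUnique m μ x₀ t₀ :=
  unique_of_lojSeq hm hE hF.toSeq hμ h0 x₀ ht hκ

end Vale.Agent.P218DY
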