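import Vale.Agent.P218DY.Tube2

/-! The truncation of a signed distance function. -/

open MeasureTheory Set Filter Topology Metric
open scoped ENNReal NNReal RealInnerProductSpace

namespace Vale.Agent.P218DY

open Vale.Agent.P218 Vale.Agent.P218.H63
open Vale.Agent.P218.H313 (grad tr)

set_option linter.unusedSectionVars false
set_option linter.unusedVariables false

variable {E : Type*} [NormedAddCommGroup E] [InnerProductSpace ℝ E] [FiniteDimensional ℝ E]
variable {w : E → ℝ} {δ C : ℝ}

lemma IsTube.neg (h : IsTube w δ C) : IsTube (fun x => -w x) δ C := by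
  have e1 : gradient (fun x => -w x) = fun x => - gradient w x := by
    ext1 x; exact gradient_neg' w x
  refine ⟨h.pos, h.smooth.neg, fun x hx => ?_, fun x hx => ?_, fun x hx => ?_⟩
  · rw [e1, norm_neg]; rw [abs_neg] at hx; exact h.norm_grad x hx
  · rw [e1, fderiv_fun_neg, norm_neg]; rw [abs_neg] at hx; exact h.hess_le x hx
  · rw [e1, inner_neg_right, abs_neg]; exact h.supp_le x (neg_eq_zero.1 hx)

/-- the open tube -/
lemma IsTube.isOpen_tube (h : IsTube w δ C) : IsOpen {x | |w x| < δ} :=
  isOpen_lt h.smooth.continuous.abs continuous_const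

/-- the Hessian kills the gradient -/
lemma IsTube.hess_grad (h : IsTube w δ C) {x : E} (hx : |w x| < δ) :
    fderiv ℝ (gradient w) x (gradient w x) = 0 := by
  have hw2 : ContDiff ℝ 2 w := h.smooth
  have h1 : ContDiff ℝ 1 (gradient w) := contDiff_gradient hw2 (by norm_num)
  have hd : HasFDerivAt (gradient w) (fderiv ℝ (gradient w) x) x :=
    (h1.differentiable (by norm_num) x).hasFDerivAt
  have h2 : HasFDerivAt (fun y => ‖gradient w y‖ ^ 2)
      (2 • (innerSL ℝ (gradient w x)).comp (fderiv ℝ (gradient w) x)) x := hd.norm_sq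
  have h3 : (fun y => ‖gradient w y‖ ^ 2) =ᶠ[𝓝 x] fun _ => 1 := by
    filter_upwards [h.isOpen_tube.mem_nhds hx] with y hy
    rw [h.norm_grad y hy]; norm_num
  have h4 : HasFDerivAt (fun y => ‖gradient w y‖ ^ 2) (0 : E →L[ℝ] ℝ) x :=
    (hasFDerivAt_const (1 : ℝ) x).congr_of_eventuallyEq h3
  have h5 := h2.unique h4
  apply ext_inner_left ℝ
  intro v
  rw [inner_zero_right, ← hess_symm hw2]
  have h6 := congrArg (fun L : E →L[ℝ] ℝ => L v) h5
  simp at h6
  rw [real_inner_comm, inner_gradient]
  exact h6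

/-- the ray towards the foot point, starting on the positive side -/
lemma IsTube.ray_pos (h : IsTube w δ C) {x : E} (hx0 : 0 ≤ w x)
    (hx : w x < δ) : ∀ t ∈ Icc 0 (w x), gradient w (x - t • gradient w x) = gradient w x ∧
      w (x - t • gradient w x) = w x - t := by
  have hw2 : ContDiff ℝ 2 w := h.smooth
  have hg1 : ContDiff ℝ 1 (gradient w) := contDiff_gradient hw2 (by norm_num)
  set e := gradient w x with he
  set c : ℝ → E := fun t => x - t • e with hc
  have hcc : Continuous c := by rw [hc]; fun_prop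
  have hcd : ∀ t, HasDerivAt c (-e) t := by
    intro t
    have h1 : HasDerivAt (fun t : ℝ => t • e) ((1 : ℝ) • e) t := (hasDerivAt_id t).smul_const e
    rw [one_smul] at h1
    exact h1.const_sub x
  have he1 : ‖e‖ = 1 := h.norm_grad x (by rw [abs_of_nonneg hx0]; exact hx)
  set A : Set ℝ := {t | gradient w (c t) = e ∧ w (c t) = w x - t} with hA
  have hAc : IsClosed A := by
    rw [hA, Set.ofPred_and]
    exact (isClosed_eq (hg1.continuous.comp hcc) continuous_const).inter
      (isClosed_eq (hw2.continuous.comp hcc) (by fun_prop))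
  have h0 : (0 : ℝ) ∈ A := by simp [hA, hc, he]
  have key : Icc 0 (w x) ⊆ A := by
    refine (hAc.inter isClosed_Icc).Icc_subset_of_forall_mem_nhdsWithin h0 ?_
    rintro t ⟨⟨ht1, ht2⟩, ht3⟩
    have hct : |w (c t)| < δ := by
      rw [ht2, abs_of_nonneg (by linarith [ht3.2])]
      linarith [ht3.1]
    obtain ⟨ε, hε, hball⟩ := Metric.mem_nhds_iff.1
      ((h.isOpen_tube.preimage hcc).mem_nhds (show t ∈ c ⁻¹' {x | |w x| < δ} from hct))
    have hIcc : ∀ s ∈ Icc t (t + ε / 2), |w (c s)| < δ := by
      intro s hs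
      apply hball
      rw [mem_ball, Real.dist_eq, abs_of_nonneg (by linarith [hs.1])]
      linarith [hs.2]
    -- Gronwall
    have hz : ∀ s ∈ Icc t (t + ε / 2), ‖gradient w (c s) - e‖ ≤ gronwallBound 0 C 0 (s - t) := by
      apply norm_le_gronwallBound_of_norm_deriv_right_le
        (f' := fun s => fderiv ℝ (gradient w) (c s) (-e))
      · exact ((hg1.continuous.comp hcc).sub continuous_const).continuousOn
      · intro s hs
        have h1 : HasFDerivAt (gradient w) (fderiv ℝ (gradient w) (c s)) (c s) :=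
          (hg1.differentiable (by norm_num) _).hasFDerivAt
        exact ((h1.comp_hasDerivAt s (hcd s)).sub_const e).hasDerivWithinAt
      · rw [ht1, sub_self, norm_zero]
      · intro s hs
        have hs' : |w (c s)| < δ := hIcc s ⟨hs.1, hs.2.le⟩
        have h1 : fderiv ℝ (gradient w) (c s) (-e)
            = fderiv ℝ (gradient w) (c s) (gradient w (c s) - e) := by
          rw [map_sub, h.hess_grad hs', map_neg, zero_sub]
        rw [h1, add_zero]
        exact (ContinuousLinearMap.le_opNorm _ _).trans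
          (mul_le_mul_of_nonneg_right (h.hess_le _ hs') (norm_nonneg _))
    have hz' : ∀ s ∈ Icc t (t + ε / 2), gradient w (c s) = e := by
      intro s hs
      have := hz s hs
      rw [gronwallBound_ε0_δ0] at this
      exact sub_eq_zero.1 (norm_le_zero_iff.1 this)
    have hw' : ∀ s ∈ Icc t (t + ε / 2), w (c s) = w x - s := by
      intro s hs
      have h1 : ∀ r ∈ Icc t (t + ε / 2), HasDerivWithinAt (fun r => w (c r) + r) 0
          (Icc t (t + ε / 2)) r := by
        intro r hr
        have h2 : HasFDerivAt w (fderiv ℝ w (c r)) (c r) :=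
          (hw2.differentiable (by norm_num) _).hasFDerivAt
        have h3 := (h2.comp_hasDerivAt r (hcd r)).add (hasDerivAt_id r)
        have h4 : fderiv ℝ w (c r) (-e) + 1 = 0 := by
          rw [← inner_gradient, hz' r hr, inner_neg_right, real_inner_self_eq_norm_sq, he1]
          norm_num
        rw [h4] at h3
        exact h3.hasDerivWithinAt
      have h5 := (convex_Icc t (t + ε / 2)).norm_image_sub_le_of_norm_hasDerivWithin_le
        (C := 0) h1 (fun r _ => by simp) (show t ∈ Icc t (t + ε / 2) from ⟨le_rfl, by linarith⟩) hs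
      rw [zero_mul] at h5
      have h6 : w (c s) + s = w (c t) + t := sub_eq_zero.1 (norm_le_zero_iff.1 h5)
      linarith
    rw [mem_nhdsWithin]
    refine ⟨Iio (t + ε / 2), isOpen_Iio, mem_Iio.2 (by linarith), ?_⟩
    rintro s ⟨hs1, hs2⟩
    have hs : s ∈ Icc t (t + ε / 2) := ⟨(mem_Ioi.1 hs2).le, (mem_Iio.1 hs1).le⟩
    exact ⟨hz' s hs, hw' s hs⟩
  intro t ht
  exact key ht


lemma IsTube.inner_le_pos (h : IsTube w δ C) {x : E} (h0 : 0 ≤ w x) (hx : w x < δ) :
    |⟪x, gradient w x⟫| ≤ C + δ := by
  obtain ⟨h1, h2⟩ := h.ray_pos h0 hx (w x) ⟨h0, le_rfl⟩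
  have h3 := h.supp_le _ (by rw [h2, sub_self])
  rw [h1, inner_sub_left, real_inner_smul_left, real_inner_self_eq_norm_sq,
    h.norm_grad x (by rwa [abs_of_nonneg h0])] at h3
  have h4 := abs_sub_abs_le_abs_sub ⟪x, gradient w x⟫ (w x * 1 ^ 2)
  rw [one_pow, mul_one, abs_of_nonneg h0] at h4
  rw [one_pow, mul_one] at h3
  linarith

/-- bound of the support function in the tube -/
lemma IsTube.inner_le (h : IsTube w δ C) {x : E} (hx : |w x| < δ) :
    |⟪x, gradient w x⟫| ≤ C + δ := by
  rcases le_total 0 (w x) with h0 | h0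
  · rw [abs_of_nonneg h0] at hx
    exact h.inner_le_pos h0 hx
  · rw [abs_of_nonpos h0] at hx
    have h1 := h.neg.inner_le_pos (x := x) (by simpa using h0) hx
    rwa [gradient_neg', inner_neg_right, abs_neg] at h1

/-- the truncated function -/
noncomputable def trc (a : ℝ) (ha : 0 < a) (w : E → ℝ) (x : E) : ℝ := Theta a ha (w x)

section

variable {a : ℝ} (ha : 0 < a)

lemma Theta_zero_iff (s : ℝ) : Theta a ha s = 0 ↔ s = 0 := by
  constructor
  · intro h
    by_cases hs : |s| ≤ a
    · rwa [Theta_eq ha hs] at h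
    · have := Theta_ge ha (le_of_lt (not_le.1 hs))
      rw [h, abs_zero] at this
      linarith
  · rintro rfl
    exact Theta_eq ha (by simp [ha.le])

lemma trc_zero_iff (x : E) : trc a ha w x = 0 ↔ w x = 0 := Theta_zero_iff ha _

lemma trc_set : {x | trc a ha w x = 0} = {x | w x = 0} := by
  ext x; exact trc_zero_iff ha x

lemma contDiff_trc (hw : ContDiff ℝ 2 w) : ContDiff ℝ 2 (trc a ha w) :=
  (contDiff_Theta ha).comp hw

lemma gradient_trc (hw : ContDiff ℝ 2 w) :
    gradient (trc a ha w) = fun x => (bmp a ha (w x)) • gradient w x := by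
  ext1 x
  exact gradient_comp (hw.differentiable (by norm_num) x) (hasDerivAt_Theta ha _)

lemma hess_trc (hw : ContDiff ℝ 2 w) (x : E) :
    fderiv ℝ (gradient (trc a ha w)) x = (bmp a ha (w x)) • fderiv ℝ (gradient w) x
      + (deriv (bmp a ha) (w x) • fderiv ℝ w x).smulRight (gradient w x) := by
  have hg1 : ContDiff ℝ 1 (gradient w) := contDiff_gradient hw (by norm_num)
  rw [gradient_trc ha hw]
  have h1 : HasFDerivAt (gradient w) (fderiv ℝ (gradient w) x) x :=
    (hg1.differentiable (by norm_num) x).hasFDerivAt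
  have hb : HasDerivAt (bmp a ha) (deriv (bmp a ha) (w x)) (w x) := by
    have : ContDiff ℝ 1 (bmp a ha) := (bmp a ha).contDiff
    exact (this.differentiable (by norm_num) _).hasDerivAt
  have h2 : HasFDerivAt (fun x => bmp a ha (w x)) (deriv (bmp a ha) (w x) • fderiv ℝ w x) x :=
    hb.comp_hasFDerivAt x (hw.differentiable (by norm_num) x).hasFDerivAt
  exact (h2.smul h1).fderiv

lemma trc_eq {x : E} (hx : |w x| ≤ a) : trc a ha w x = w x := Theta_eq ha hx

lemma gradient_trc_eq (hw : ContDiff ℝ 2 w) {x : E} (hx : |w x| ≤ a) :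
    gradient (trc a ha w) x = gradient w x := by
  rw [gradient_trc ha hw]
  simp only
  rw [bmp_one ha hx, one_smul]

lemma hess_trc_eq (hw : ContDiff ℝ 2 w) {x : E} (hx : |w x| < a) :
    fderiv ℝ (gradient (trc a ha w)) x = fderiv ℝ (gradient w) x := by
  have : gradient (trc a ha w) =ᶠ[𝓝 x] gradient w := by
    have h1 : {y | |w y| < a} ∈ 𝓝 x :=
      (isOpen_lt hw.continuous.abs continuous_const).mem_nhds hx
    filter_upwards [h1] with y hy using gradient_trc_eq ha hw (le_of_lt hy)
  exact this.fderiv_eq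

lemma trc_small {x : E} (hx : |trc a ha w x| < a) : |w x| < a := by
  by_contra hcon
  push Not at hcon
  have := Theta_ge ha hcon
  unfold trc at hx
  linarith

lemma dfc_trc (hw : ContDiff ℝ 2 w) {x : E} (hx : w x = 0) :
    dfc (trc a ha w) x = defect w x := by
  have h1 : |w x| < a := by rw [hx, abs_zero]; exact ha
  unfold dfc defect lap tr
  rw [H313.grad_eq_gradient, hess_trc_eq ha hw h1, gradient_trc_eq ha hw h1.le]
  ring

end

/-- **Truncation with uniform constants.** -/
theorem exists_trc {δ : ℝ} (hδ : 0 < δ) (C : ℝ) : ∃ (a : ℝ) (ha : 0 < a) (c K : ℝ),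
    2 * a < δ ∧ 0 < c ∧ c ≤ a ∧ ∀ w : E → ℝ, IsTube w δ C → TubeG (trc a ha w) c K := by
  have ha : 0 < δ / 4 := by linarith
  set a := δ / 4 with ha_def
  have haδ : 2 * a < δ := by linarith
  obtain ⟨M, hM0, hM⟩ := exists_deriv_bmp_le ha
  set K := 1 + |C| + M + δ with hK
  have hC0 := abs_nonneg C
  have hC1 := le_abs_self C
  have hK1 : 1 ≤ K := by linarith
  refine ⟨a, ha, min a (1 / (4 * K)), K, haδ, lt_min ha (by positivity), min_le_left _ _,
    fun w h => ?_⟩
  have hw2 := h.smooth
  have hgW := gradient_trc ha hw2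
  have hfar : ∀ x, 2 * a ≤ |w x| → gradient (trc a ha w) x = 0
      ∧ fderiv ℝ (gradient (trc a ha w)) x = 0 := by
    intro x hx
    constructor
    · rw [hgW]; simp only; rw [bmp_zero ha hx, zero_smul]
    · rw [hess_trc ha hw2, bmp_zero ha hx, deriv_bmp_zero ha hx, zero_smul, zero_smul]
      ext v; simp
  refine ⟨lt_min ha (by positivity), hK1, ?_, contDiff_trc ha hw2, fun x => ?_, fun x => ?_,
    fun x => ?_, fun x => ?_, fun x hx => ?_⟩
  · calc min a (1 / (4 * K)) * K ≤ 1 / (4 * K) * K := by gcongr; exact min_le_right _ _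
      _ = 1 / 4 := by field_simp
  · exact (Theta_le ha _).trans (by linarith)
  · rw [H313.grad_eq_gradient]
    rcases lt_or_ge (|w x|) (2 * a) with hx | hx
    · rw [hgW]; simp only
      rw [norm_smul, h.norm_grad x (hx.trans haδ), mul_one, Real.norm_eq_abs,
        abs_of_nonneg (bmp a ha).nonneg]
      exact (bmp a ha).le_one
    · rw [(hfar x hx).1, norm_zero]; norm_num
  · rw [H313.grad_eq_gradient]
    rcases lt_or_ge (|w x|) (2 * a) with hx | hx
    · have hx' : |w x| < δ := hx.trans haδ
      rw [hess_trc ha hw2]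
      refine (norm_add_le _ _).trans ?_
      have e1 : ‖(bmp a ha (w x)) • fderiv ℝ (gradient w) x‖ ≤ |C| := by
        rw [norm_smul, Real.norm_eq_abs, abs_of_nonneg (bmp a ha).nonneg]
        calc _ ≤ 1 * |C| := mul_le_mul (bmp a ha).le_one ((h.hess_le x hx').trans hC1)
              (norm_nonneg _) zero_le_one
          _ = |C| := one_mul _
      have e2 : ‖(deriv (bmp a ha) (w x) • fderiv ℝ w x).smulRight (gradient w x)‖ ≤ M := by
        rw [ContinuousLinearMap.norm_smulRight_apply, norm_smul, h.norm_grad x hx', mul_one,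
          ← norm_gradient, h.norm_grad x hx', mul_one, Real.norm_eq_abs]
        exact hM _
      linarith
    · rw [(hfar x hx).2, norm_zero]; linarith
  · rw [H313.grad_eq_gradient]
    rcases lt_or_ge (|w x|) (2 * a) with hx | hx
    · rw [hgW]; simp only
      rw [real_inner_smul_right, abs_mul, abs_of_nonneg (bmp a ha).nonneg]
      have h1 := h.inner_le (hx.trans haδ)
      calc _ ≤ 1 * |⟪x, gradient w x⟫| :=
            mul_le_mul_of_nonneg_right (bmp a ha).le_one (abs_nonneg _)
        _ ≤ _ := by rw [one_mul]; linarith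
    · rw [(hfar x hx).1, inner_zero_right, abs_zero]; linarith
  · have hx' := trc_small ha (hx.trans_le (min_le_left _ _))
    rw [H313.grad_eq_gradient, gradient_trc_eq ha hw2 hx'.le]
    exact h.norm_grad x (by linarith)

end Vale.Agent.P218DY
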