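import Vale.Agent.P218DY.Defs2
import Vale.Agent.P218DY.Trunc
import Vale.Agent.P218.H63.Fin

/-! The truncated families. -/

open MeasureTheory Set Filter Topology Metric
open scoped ENNReal NNReal RealInnerProductSpace

namespace Vale.Agent.P218DY

open Vale.Agent.P218 Vale.Agent.P218.H63
open Vale.Agent.P218.H313 (grad tr jac rho)

set_option linter.unusedSectionVars false
set_option linter.unusedVariables false

variable {E : Type*} [NormedAddCommGroup E] [InnerProductSpace ℝ E] [FiniteDimensional ℝ E]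
  [MeasurableSpace E] [BorelSpace E]
variable {P : Type*} [NormedAddCommGroup P] [NormedSpace ℝ P]
variable {Λ : Type*} [NormedAddCommGroup Λ] [NormedSpace ℝ Λ]

/-- the truncated version of `IsLojSeq` -/
structure GSeq (m : ℕ) (W₀ : E → ℝ) (V : ℕ → P → E → ℝ) (V' : P →ₗ[ℝ] (E → ℝ))
    (e : Λ →ₗ[ℝ] (E → ℝ)) (lam : ℕ → P → Λ) (η : ℕ → ℝ) (c K C : ℝ) (q : ℕ) : Prop where
  tube0 : TubeG W₀ c K
  tube : ∀ᶠ p : ℕ × P in atTop ×ˢ 𝓝 0, TubeG (V p.1 p.2) c K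
  cont : ∀ R : ℝ, ∀ᶠ p : ℕ × P in atTop ×ˢ 𝓝 0, ∀ ε : ℝ, 0 < ε → ∀ᶠ a in 𝓝 p.2, ∀ x, ‖x‖ ≤ R →
    |V p.1 a x - V p.1 p.2 x| ≤ ε
  diff : ∀ R ε : ℝ, 0 < ε → ∀ᶠ p : ℕ × P in atTop ×ˢ 𝓝 0, ∀ x, ‖x‖ ≤ R →
    |V p.1 p.2 x - V p.1 0 x - V' p.2 x| ≤ ε * ‖p.2‖
  conv0 : ∀ R ε : ℝ, 0 < ε → ∀ᶠ p : ℕ × P in atTop ×ˢ 𝓝 0, ∀ x, ‖x‖ ≤ R →
    |V p.1 p.2 x - W₀ x| ≤ ε
  conv : ∀ R ε : ℝ, 0 < ε → ∀ᶠ p : ℕ × P in atTop ×ˢ 𝓝 0, ∀ x, ‖x‖ ≤ R →
    ‖grad (V p.1 p.2) x - grad W₀ x‖ ≤ ε ∧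
      ‖fderiv ℝ (grad (V p.1 p.2)) x - fderiv ℝ (grad W₀) x‖ ≤ ε
  v_cont : ∀ b, Continuous (V' b)
  e_cont : ∀ l, Continuous (e l)
  e_le : ∀ l x, |e l x| ≤ C * (1 + ‖x‖) ^ q * ‖l‖
  eta_zero : Tendsto η atTop (𝓝 0)
  lam_zero : Tendsto (fun p : ℕ × P => lam p.1 p.2) (atTop ×ˢ 𝓝 0) (𝓝 0)
  err : ∀ ε : ℝ, 0 < ε → ∀ᶠ p : ℕ × P in atTop ×ˢ 𝓝 0, ∀ x, V p.1 p.2 x = 0 →
    |dfc (V p.1 p.2) x - e (lam p.1 p.2) x| ≤ (ε * ‖lam p.1 p.2‖ + η p.1) * (1 + ‖x‖) ^ q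
  loj : ∃ γ C' : ℝ, 1 < γ ∧ ∀ᶠ p : ℕ × P in atTop ×ˢ 𝓝 0,
    gaussArea m {x | V p.1 p.2 x = 0} univ
      ≤ gaussArea m {x | W₀ x = 0} univ + ENNReal.ofReal (C' * ‖lam p.1 p.2‖ ^ γ + η p.1)
  inj : ∀ b, (∀ x, W₀ x = 0 → V' b x = 0) → b = 0
  indep : ∀ l, (∀ x, W₀ x = 0 → e l x = 0) → l = 0
  nd : ∀ (u : E → ℝ) (l : Λ), AEStronglyMeasurable u (HS m W₀) →
    Integrable (fun x => u x ^ 2 * rho x) (HS m W₀) →
    (∀ ζ : E → ℝ, ContDiff ℝ 2 ζ → HasCompactSupport ζ →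
      ∫ x, u x * jac W₀ ζ x * rho x ∂(HS m W₀) = ∫ x, ζ x * e l x * rho x ∂(HS m W₀)) →
    ∃ b, u =ᵐ[HS m W₀] V' b

section theta

variable {a : ℝ} (ha : 0 < a)

lemma Theta_lip (s t : ℝ) : |Theta a ha s - Theta a ha t| ≤ |s - t| := by
  have h := Convex.norm_image_sub_le_of_norm_hasDerivWithin_le (𝕜 := ℝ) (s := univ) (C := 1)
    (f := Theta a ha) (f' := bmp a ha) (fun z _ => (hasDerivAt_Theta ha z).hasDerivWithinAt)
    (fun z _ => by
      rw [Real.norm_of_nonneg (bmp a ha).nonneg]; exact (bmp a ha).le_one)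
    convex_univ (mem_univ t) (mem_univ s)
  rwa [one_mul, Real.norm_eq_abs, Real.norm_eq_abs] at h

lemma bmp_lip {M : ℝ} (hM : ∀ s, |deriv (bmp a ha) s| ≤ M) (s t : ℝ) :
    |bmp a ha s - bmp a ha t| ≤ M * |s - t| := by
  have hd : Differentiable ℝ (bmp a ha) :=
    ((bmp a ha).contDiff (n := 1)).differentiable (by norm_num)
  have h := Convex.norm_image_sub_le_of_norm_hasDerivWithin_le (𝕜 := ℝ) (s := univ) (C := M)
    (f := bmp a ha) (f' := deriv (bmp a ha)) (fun z _ => (hd z).hasDerivAt.hasDerivWithinAt)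
    (fun z _ => hM z) convex_univ (mem_univ t) (mem_univ s)
  rwa [Real.norm_eq_abs, Real.norm_eq_abs] at h

lemma Theta_taylor {M : ℝ} (hM0 : 0 ≤ M) (hM : ∀ s, |deriv (bmp a ha) s| ≤ M) (s t : ℝ) :
    |Theta a ha s - Theta a ha t - bmp a ha t * (s - t)| ≤ M * |s - t| * |s - t| := by
  have h := Convex.norm_image_sub_le_of_norm_hasDerivWithin_le (𝕜 := ℝ)
    (s := closedBall t |s - t|) (C := M * |s - t|)
    (f := fun z => Theta a ha z - bmp a ha t * z) (f' := fun z => bmp a ha z - bmp a ha t * 1)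
    (fun z _ => ((hasDerivAt_Theta ha z).sub ((hasDerivAt_id z).const_mul _)).hasDerivWithinAt)
    (fun z hz => by
      rw [mul_one, Real.norm_eq_abs]
      refine (bmp_lip ha hM z t).trans ?_
      rw [mem_closedBall, Real.dist_eq] at hz
      gcongr)
    (convex_closedBall _ _) (mem_closedBall_self (abs_nonneg _))
    (show s ∈ closedBall t |s - t| by rw [mem_closedBall, Real.dist_eq])
  rw [Real.norm_eq_abs, Real.norm_eq_abs] at h
  refine le_trans (le_of_eq ?_) h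
  congr 1; ring

/-- the jets of the truncation depend continuously on the jets -/
lemma trc_conv {w₀ : E → ℝ} (hw₀ : ContDiff ℝ 2 w₀) (R : ℝ) {ε : ℝ} (hε : 0 < ε) :
    ∃ δ' : ℝ, 0 < δ' ∧ ∀ w : E → ℝ, ContDiff ℝ 2 w → ∀ x, ‖x‖ ≤ R → |w x - w₀ x| ≤ δ' →
      ‖gradient w x - gradient w₀ x‖ ≤ δ' →
      ‖fderiv ℝ (gradient w) x - fderiv ℝ (gradient w₀) x‖ ≤ δ' →
      ‖grad (trc a ha w) x - grad (trc a ha w₀) x‖ ≤ ε ∧
        ‖fderiv ℝ (grad (trc a ha w)) x - fderiv ℝ (grad (trc a ha w₀)) x‖ ≤ ε := by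
  let Φ : ℝ × E × (E →L[ℝ] E) → E × (E →L[ℝ] E) := fun j =>
    (bmp a ha j.1 • j.2.1, bmp a ha j.1 • j.2.2
      + (deriv (bmp a ha) j.1 • innerSL ℝ j.2.1).smulRight j.2.1)
  have hb : Continuous (bmp a ha) := (bmp a ha).continuous
  have hb' : Continuous (deriv (bmp a ha)) :=
    ((bmp a ha).contDiff (n := 1)).continuous_deriv (by norm_num)
  have hΦ : Continuous Φ := by
    refine ((hb.comp continuous_fst).smul continuous_snd.fst).prodMk
      (((hb.comp continuous_fst).smul continuous_snd.snd).add ?_)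
    have h1 : Continuous fun j : ℝ × E × (E →L[ℝ] E) => deriv (bmp a ha) j.1 • innerSL ℝ j.2.1 :=
      (hb'.comp continuous_fst).smul ((innerSL ℝ).continuous.comp continuous_snd.fst)
    exact ((ContinuousLinearMap.smulRightL ℝ E E).continuous₂.comp₂ h1 continuous_snd.fst)
  let J : (E → ℝ) → E → ℝ × E × (E →L[ℝ] E) := fun w x =>
    (w x, gradient w x, fderiv ℝ (gradient w) x)
  have hJ : ∀ w : E → ℝ, ContDiff ℝ 2 w → ∀ x,
      Φ (J w x) = (grad (trc a ha w) x, fderiv ℝ (grad (trc a ha w)) x) := by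
    intro w hw x
    rw [H313.grad_eq_gradient, hess_trc ha hw, gradient_trc ha hw]
    have : innerSL ℝ (gradient w x) = fderiv ℝ w x := by
      ext v; exact inner_gradient w x v
    simp only [Φ, J, this]
  have hg1 : ContDiff ℝ 1 (gradient w₀) := contDiff_gradient hw₀ (by norm_num)
  have hJ0 : Continuous (J w₀) :=
    hw₀.continuous.prodMk (hg1.continuous.prodMk (hg1.continuous_fderiv (by norm_num)))
  have hK : IsCompact (J w₀ '' closedBall 0 R) := (isCompact_closedBall 0 R).image hJ0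
  have hU := hK.uniformContinuousAt_of_continuousAt Φ (fun _ _ => hΦ.continuousAt)
    (Metric.dist_mem_uniformity hε)
  obtain ⟨δ', hδ', hδ⟩ := Metric.mem_uniformity_dist.1 hU
  refine ⟨δ' / 2, half_pos hδ', fun w hw x hx h1 h2 h3 => ?_⟩
  have h4 : dist (J w₀ x) (J w x) < δ' := by
    rw [dist_comm, Prod.dist_eq, Prod.dist_eq, Real.dist_eq, dist_eq_norm, dist_eq_norm]
    simp only [J]
    exact max_lt (by linarith) (max_lt (by linarith) (by linarith))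
  have h5 : dist (Φ (J w₀ x)) (Φ (J w x)) < ε :=
    hδ h4 ⟨x, by simpa using hx, rfl⟩
  rw [hJ w hw, hJ w₀ hw₀, dist_comm, Prod.dist_eq, max_lt_iff, dist_eq_norm, dist_eq_norm] at h5
  exact ⟨h5.1.le, h5.2.le⟩

end theta

lemma tendsto_zero_snd : Tendsto (fun p : ℕ × P => (p.1, (0 : P))) (atTop ×ˢ 𝓝 0)
    (atTop ×ˢ 𝓝 0) :=
  tendsto_fst.prodMk tendsto_const_nhds

/-- the velocities of the truncated family -/
noncomputable def trv (a : ℝ) (ha : 0 < a) (w₀ : E → ℝ) (v : P →ₗ[ℝ] (E → ℝ)) :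
    P →ₗ[ℝ] (E → ℝ) where
  toFun b x := bmp a ha (w₀ x) * v b x
  map_add' b b' := by ext x; simp [mul_add]
  map_smul' k b := by ext x; simp; ring

theorem IsLojSeq.exists_gseq [FiniteDimensional ℝ P] {m : ℕ} {w₀ : E → ℝ} {w : ℕ → P → E → ℝ}
    {v : P →ₗ[ℝ] (E → ℝ)} {e : Λ →ₗ[ℝ] (E → ℝ)} {lam : ℕ → P → Λ} {η : ℕ → ℝ} {δ C : ℝ} {q : ℕ}
    (h : IsLojSeq m w₀ w v e lam η δ C q) :
    ∃ (W₀ : E → ℝ) (V : ℕ → P → E → ℝ) (V' : P →ₗ[ℝ] (E → ℝ)) (c K : ℝ),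
      GSeq m W₀ V V' e lam η c K C q ∧ {x | W₀ x = 0} = {x | w₀ x = 0} := by
  obtain ⟨a, ha, c, K, haδ, hc, hca, hT⟩ := exists_trc (E := E) h.tube0.pos C
  obtain ⟨M, hM0, hM⟩ := exists_deriv_bmp_le ha
  have hw₀ := h.tube0.smooth
  have hS' : ∀ b x, w₀ x = 0 → trv a ha w₀ v b x = v b x := by
    intro b x hx
    change bmp a ha (w₀ x) * v b x = v b x
    rw [bmp_one ha (by rw [hx, abs_zero]; exact ha.le), one_mul]
  refine ⟨trc a ha w₀, fun n p => trc a ha (w n p), trv a ha w₀ v, c, K, ⟨hT _ h.tube0,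
    h.tube.mono fun p hp => hT _ hp, fun R => ?_, fun R ε hε => ?_, fun R ε hε => ?_,
    fun R ε hε => ?_, fun b => ?_, h.e_cont, h.e_le, h.eta_zero, h.lam_zero, fun ε hε => ?_, ?_,
    fun b hb => ?_, fun l hl => ?_, fun u l hu hu2 hweak => ?_⟩, trc_set ha⟩
  · filter_upwards [h.cont R] with p hp ε hε
    filter_upwards [hp ε hε] with b hb x hx
    exact (Theta_lip ha _ _).trans (hb x hx)
  · obtain ⟨B, hB, hb⟩ := exists_lin_bound h.v_cont R
    set ε₁ := min 1 (ε / 3) with hε₁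
    have hε₁0 : 0 < ε₁ := lt_min one_pos (by positivity)
    have h3 : ∀ᶠ p : ℕ × P in atTop ×ˢ 𝓝 0, M * (B + 1) ^ 2 * ‖p.2‖ ≤ ε / 3 := by
      have : Tendsto (fun a : P => M * (B + 1) ^ 2 * ‖a‖) (𝓝 0) (𝓝 0) :=
        (continuous_const.mul continuous_norm).tendsto' _ _ (by simp)
      exact (this.eventually_le_const (by positivity)).prod_inr atTop
    have hε₂ : 0 < ε / (3 * (M * B + 1)) := by positivity
    filter_upwards [h.diff R ε₁ hε₁0, h3, tendsto_zero_snd.eventually (h.conv R _ hε₂)]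
      with p h1 h2 h4 x hx
    have b1 := h1 x hx
    have b2 := hb p.2 x hx
    have b3 := (h4 x hx).1
    set s := w p.1 p.2 x
    set t := w p.1 0 x
    have hn := norm_nonneg p.2
    have b4 : |s - t| ≤ (B + 1) * ‖p.2‖ := by
      have b5 := abs_add_le (s - t - v p.2 x) (v p.2 x)
      rw [sub_add_cancel] at b5
      have b6 : ε₁ * ‖p.2‖ ≤ 1 * ‖p.2‖ := by gcongr; exact min_le_left _ _
      linarith
    have b5 := Theta_taylor ha hM0 hM s t
    have b6 := bmp_lip ha hM t (w₀ x)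
    have e1 : trc a ha (w p.1 p.2) x - trc a ha (w p.1 0) x - trv a ha w₀ v p.2 x
        = (Theta a ha s - Theta a ha t - bmp a ha t * (s - t))
          + bmp a ha t * (s - t - v p.2 x) + (bmp a ha t - bmp a ha (w₀ x)) * v p.2 x := by
      change Theta a ha s - Theta a ha t - bmp a ha (w₀ x) * v p.2 x = _
      ring
    have c1 : M * |s - t| * |s - t| ≤ ε / 3 * ‖p.2‖ := by
      calc M * |s - t| * |s - t| ≤ M * ((B + 1) * ‖p.2‖) * ((B + 1) * ‖p.2‖) := by gcongr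
        _ = (M * (B + 1) ^ 2 * ‖p.2‖) * ‖p.2‖ := by ring
        _ ≤ _ := by gcongr
    have c2 : |bmp a ha t * (s - t - v p.2 x)| ≤ ε / 3 * ‖p.2‖ := by
      rw [abs_mul, abs_of_nonneg (bmp a ha).nonneg]
      calc _ ≤ 1 * (ε₁ * ‖p.2‖) := mul_le_mul (bmp a ha).le_one b1 (abs_nonneg _) zero_le_one
        _ ≤ _ := by rw [one_mul]; gcongr; exact min_le_right _ _
    have c3 : |(bmp a ha t - bmp a ha (w₀ x)) * v p.2 x| ≤ ε / 3 * ‖p.2‖ := by
      rw [abs_mul]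
      calc _ ≤ (M * (ε / (3 * (M * B + 1)))) * (B * ‖p.2‖) :=
            mul_le_mul (b6.trans (by gcongr)) b2 (abs_nonneg _) (by positivity)
        _ = ε / 3 * (M * B / (M * B + 1)) * ‖p.2‖ := by field_simp
        _ ≤ ε / 3 * 1 * ‖p.2‖ := by
            gcongr
            rw [div_le_one (by positivity)]; linarith
        _ = _ := by ring
    rw [e1]
    refine (abs_add_three _ _ _).trans ?_
    linarith
  · filter_upwards [h.conv R ε hε] with p hp x hx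
    exact (Theta_lip ha _ _).trans (hp x hx).1
  · obtain ⟨δ', hδ', hδ⟩ := trc_conv ha hw₀ R hε
    filter_upwards [h.conv R δ' hδ', h.tube] with p hp ht x hx
    exact hδ _ ht.smooth x hx (hp x hx).1 (hp x hx).2.1 (hp x hx).2.2
  · exact ((bmp a ha).continuous.comp hw₀.continuous).mul (h.v_cont b)
  · filter_upwards [h.err ε hε, h.tube] with p hp ht x hx
    have hx' := (trc_zero_iff ha x).1 hx
    rw [dfc_trc ha ht.smooth hx']
    exact hp x hx'
  · simp only [trc_set]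
    exact h.loj
  · exact h.inj b fun x hx => by
      rw [← hS' b x hx]; exact hb x ((trc_zero_iff ha x).2 hx)
  · exact h.indep l fun x hx => hl x ((trc_zero_iff ha x).2 hx)
  · unfold HS at hu hu2 hweak ⊢
    rw [trc_set] at hu hu2 hweak ⊢
    set S := {x | w₀ x = 0} with hSd
    have hSm : MeasurableSet S := (isClosed_eq hw₀.continuous continuous_const).measurableSet
    have hjac : ∀ ζ : E → ℝ, ∀ x ∈ S, jac (trc a ha w₀) ζ x = stab w₀ ζ x := by
      intro ζ x hx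
      have hx' : |w₀ x| < a := by rw [show w₀ x = 0 from hx, abs_zero]; exact ha
      unfold jac stab H63.lap hessSq tr
      rw [H313.grad_eq_gradient, H313.grad_eq_gradient, hess_trc_eq ha hw₀ hx',
        gradient_trc_eq ha hw₀ hx'.le]
      ring
    obtain ⟨b, hb⟩ := h.nd u l
      ((memLp_two_iff_integrable_sq (hu.mono_ac gaussArea_ac)).2 (integrable_gaussArea hu2))
      (fun ζ hζ hζc => by
        rw [integral_gaussArea, integral_gaussArea]
        have e1 : ∫ x in S, u x * stab w₀ ζ x * rho x ∂μH[m]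
            = ∫ x in S, u x * jac (trc a ha w₀) ζ x * rho x ∂μH[m] := by
          refine integral_congr_ae ((ae_restrict_mem hSm).mono fun x hx => ?_)
          simp only
          rw [hjac ζ x hx]
        rw [e1, hweak ζ hζ hζc]
        congr 1; ext x; ring)
    refine ⟨b, ?_⟩
    filter_upwards [ac_gaussArea.ae_eq hb, ae_restrict_mem hSm] with x hx hxS
    rw [hx, hS' b x hxS]

end Vale.Agent.P218DY
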