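import Vale.Agent.P218DY.Near
import Vale.Agent.P218DY.GSeq
import Vale.Agent.P218GE.Gauge

/-! The gauge and the static estimate near the model. -/

open MeasureTheory Set Filter Topology Metric
open scoped ENNReal NNReal RealInnerProductSpace

namespace Vale.Agent.P218DY

open Vale.Agent.P214 (proj divAlong)
open Vale.Agent.P218 Vale.Agent.P218.H313

set_option linter.unusedSectionVars false
set_option linter.unusedVariables false

variable {E : Type*} [NormedAddCommGroup E] [InnerProductSpace ℝ E] [FiniteDimensional ℝ E]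
  [MeasurableSpace E] [BorelSpace E]
variable {m : ℕ} {c K : ℝ}
variable {ι : Type*} {l : Filter ι} {N : ι → Measure E}
  {T : ι → E → Submodule ℝ E} {H : ι → E → E} {κ : Measure E}

/-- convergence of slices along a filter -/
structure ConvF (l : Filter ι) (m : ℕ) (N : ι → Measure E) (T : ι → E → Submodule ℝ E)
    (H : ι → E → E) (κ : Measure E) : Prop where
  lf : IsLocallyFiniteMeasure κ
  sl : ∀ᶠ i in l, GSlice m (N i) (T i) (H i)
  mom : ∀ p : ℕ, ∃ C : ℝ, ∀ᶠ i in l, ∫ x, (1 + ‖x‖) ^ p * rho x ∂(N i) ≤ C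
  ratio : ∃ C : ℝ, ∀ᶠ i in l, Ratio m (N i) C
  lim : ∀ φ : E → ℝ, Continuous φ → HasCompactSupport φ →
    Tendsto (fun i => ∫ x, φ x ∂(N i)) l (𝓝 (∫ x, φ x ∂κ))

lemma ConvF.conv (h : ConvF l m N T H κ) {U : Ultrafilter ι} (hU : (U : Filter ι) ≤ l) :
    Conv U m N T H κ where
  lf := h.lf
  sl := hU h.sl
  mom p := (h.mom p).imp fun _ hC => hU hC
  ratio := h.ratio.imp fun _ hC => hU hC
  lim φ h1 h2 := (h.lim φ h1 h2).mono_left hU

variable {P : Type*} [NormedAddCommGroup P] [NormedSpace ℝ P] [FiniteDimensional ℝ P]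
variable {Λ : Type*} [NormedAddCommGroup Λ] [NormedSpace ℝ Λ] [FiniteDimensional ℝ Λ]
variable {W₀ : E → ℝ} {V : ℕ → P → E → ℝ} {V' : P →ₗ[ℝ] (E → ℝ)} {e : Λ →ₗ[ℝ] (E → ℝ)}
  {lam : ℕ → P → Λ} {η : ℕ → ℝ} {C : ℝ} {q : ℕ} {n : ι → ℕ}

lemma ae_HS {W : E → ℝ} (hW : Continuous W) : ∀ᵐ x ∂(HS m W), W x = 0 :=
  ae_restrict_mem (isClosed_eq hW continuous_const).measurableSet

/-- the test functions of the gauge -/
noncomputable def zc (k : ℕ) (V' : P →ₗ[ℝ] (E → ℝ)) : P →ₗ[ℝ] (E → ℝ) where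
  toFun b x := cut k x * V' b x * rho x
  map_add' b b' := by ext x; simp; ring
  map_smul' k b := by ext x; simp; ring

namespace GSeq

lemma tendsto_DD (G : GSeq m W₀ V V' e lam η c K C q) (h : ConvF l m N T H (HS m W₀))
    (hn : Tendsto n l atTop) {a : ι → P} (ha : Tendsto a l (𝓝 0)) :
    Tendsto (fun i => DD (N i) (V (n i) (a i)) 0) l (𝓝 0) := by
  have hna : Tendsto (fun i => (n i, a i)) l (atTop ×ˢ 𝓝 0) := hn.prodMk ha
  rw [tendsto_iff_ultrafilter]
  intro U hU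
  exact P218DY.tendsto_DD (h.conv hU) G.tube0 (ae_HS G.tube0.cont) (hU (hna.eventually G.tube))
    fun R ε hε => hU (hna.eventually (G.conv0 R ε hε))

/-- the gauge -/
lemma gauge (G : GSeq m W₀ V V' e lam η c K C q) (h : ConvF l m N T H (HS m W₀))
    (hn : Tendsto n l atTop) {t : ι → ℝ} (ht : ∀ i, 0 < t i) (ht0 : Tendsto t l (𝓝 0)) {k : ℕ}
    (hk : ∀ b, b ≠ 0 → 0 < ∫ x, V' b x * (cut k x * V' b x * rho x) ∂(HS m W₀)) :
    ∃ a : ι → P, Tendsto a l (𝓝 0) ∧ ∀ᶠ i in l, ∀ b,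
      ∫ x, V (n i) (a i) x * (cut k x * V' b x) * rho x ∂(N i) = 0 := by
  have := h.lf
  obtain ⟨R, -, hR⟩ := exists_radius (cut_compact (E := E) k)
  have hp : Tendsto (fun p : ι × P => (n p.1, p.2)) (l ×ˢ 𝓝 0) (atTop ×ˢ 𝓝 0) :=
    (hn.comp tendsto_fst).prodMk tendsto_snd
  have hc : ∀ b, Continuous fun x => cut k x * V' b x := fun b =>
    (continuous_cut k).mul (G.v_cont b)
  have hpb : ∀ b, PB fun x => cut k x * V' b x := fun b =>
    PB.of_compact (hc b) (cut_compact k).mul_right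
  refine exists_small_choice ht ht0 (G := fun i a => ∀ b,
    ∫ x, V (n i) a x * (cut k x * V' b x) * rho x ∂(N i) = 0) fun ε hε => ?_
  have h1 := P218GE.exists_gauge (l := l) (N := N) (κ := HS m W₀) (h.sl.mono fun i hi => hi.mc.fin)
    h.lim (V := fun i a => V (n i) a) (V' := V') (z := zc k V') (R := R)
    ((hp.eventually G.tube).mono fun p hp => hp.cont) G.v_cont
    (fun b => (hc b).mul continuous_rho)
    (fun b x hx => by
      change cut k x * V' b x * rho x = 0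
      rw [(hR x hx).1, zero_mul, zero_mul])
    (hp.eventually (G.cont R)) (fun ε hε => hp.eventually (G.diff R ε hε)) (fun b => ?_) hk hε
  · filter_upwards [h1] with i hi
    obtain ⟨a, h2, h3⟩ := hi
    refine ⟨a, h2, fun b => ?_⟩
    simp_rw [mul_assoc (V (n i) a _)]
    exact h3 b
  · have l1 := G.tendsto_DD h hn (a := fun _ => 0) tendsto_const_nhds
    have l2 : Tendsto (fun i => ∫ x, (cut k x * V' b x) ^ 2 * rho x ∂(N i)) l
        (𝓝 (∫ x, (cut k x * V' b x) ^ 2 * rho x ∂(HS m W₀))) := by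
      rw [tendsto_iff_ultrafilter]
      intro U hU
      exact (h.conv hU).lim_PB (f := fun x => (cut k x * V' b x) ^ 2) ((hc b).pow 2)
        ((hpb b).pow 2)
    have l3 := l1.sqrt.mul l2.sqrt
    rw [Real.sqrt_zero, zero_mul] at l3
    refine squeeze_zero_norm' ?_ l3
    filter_upwards [h.sl, (hn.prodMk (tendsto_const_nhds (x := (0 : P)))).eventually G.tube]
      with i hs hi
    have i1 := hs.integrable_PB (hi.cont.pow 2).aestronglyMeasurable (hi.pg.b0.pow 2)
    have i2 := hs.integrable_PB ((hc b).pow 2).aestronglyMeasurable ((hpb b).pow 2)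
    have i3 := hs.integrable_PB (hi.cont.mul (hc b)).aestronglyMeasurable (hi.pg.b0.mul (hpb b))
    have h2 := abs_integral_mul_le (fun x => (rho_pos x).le) i1 i2 i3
    rw [DD_zero_eq, Real.norm_eq_abs]
    refine le_trans (le_of_eq ?_) h2
    congr 2
    ext x
    exact (mul_assoc _ _ _).symm

/-- nondegeneracy in the gauge -/
lemma nd_gauge (hE : Module.finrank ℝ E = m + 1) (G : GSeq m W₀ V V' e lam η c K C q) {k : ℕ}
    (hk : ∀ b, b ≠ 0 → 0 < ∫ x, V' b x * (cut k x * V' b x * rho x) ∂(HS m W₀))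
    (u : E → ℝ) (L : Λ) (hu : AEStronglyMeasurable u (HS m W₀))
    (hu2 : Integrable (fun x => u x ^ 2 * rho x) (HS m W₀))
    (hw : ∀ ζ : E → ℝ, ContDiff ℝ 2 ζ → HasCompactSupport ζ →
      ∫ x, u x * jac W₀ ζ x * rho x ∂(HS m W₀) = ∫ x, ζ x * e L x * rho x ∂(HS m W₀))
    (hz : ∀ z ∈ range fun b x => cut k x * V' b x, ∫ x, z x * u x * rho x ∂(HS m W₀) = 0) :
    (∀ᵐ x ∂(HS m W₀), u x = 0) ∧ L = 0 := by
  have := locFin_HS (m := m) hE G.tube0
  obtain ⟨b, hb⟩ := G.nd u L hu hu2 hw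
  have hb0 : b = 0 := by
    by_contra h0
    refine (hk b h0).ne' (Eq.trans ?_ (hz _ ⟨b, rfl⟩))
    refine integral_congr_ae ?_
    filter_upwards [hb] with x hx
    rw [hx]; ring
  have hu0 : ∀ᵐ x ∂(HS m W₀), u x = 0 := by
    filter_upwards [hb] with x hx
    rw [hx, hb0, map_zero]; rfl
  refine ⟨hu0, G.indep L fun x hx => ?_⟩
  have hc : Continuous fun x => e L x * rho x := (G.e_cont L).mul continuous_rho
  have h1 : ∀ᵐ x ∂(HS m W₀), e L x * rho x = 0 := by
    refine ae_eq_zero_of_integral_contDiff_smul_eq_zero hc.locallyIntegrable fun g hg hgc => ?_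
    have h2 := hw g (hg.of_le (by norm_cast)) hgc
    have h3 : ∫ x, u x * jac W₀ g x * rho x ∂(HS m W₀) = 0 := by
      refine integral_eq_zero_of_ae ?_
      filter_upwards [hu0] with x hx
      simp [hx]
    rw [h3] at h2
    simp_rw [smul_eq_mul, ← mul_assoc]
    exact h2.symm
  exact (mul_eq_zero.1 (eq_zero_of_ae_HS hE G.tube0 hc h1 x hx)).resolve_right (rho_pos x).ne'

/-- **the static estimate** -/
theorem static (hm : 0 < m) (hE : Module.finrank ℝ E = m + 1)
    (G : GSeq m W₀ V V' e lam η c K C q) (h : ConvF l m N T H (HS m W₀))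
    (hn : Tendsto n l atTop) {t : ι → ℝ} (ht : ∀ i, 0 < t i) (ht0 : Tendsto t l (𝓝 0))
    (hη : ∀ i, η (n i) ^ 2 ≤ t i) :
    ∃ (a : ι → P) (σ : ι → ℝ) (C₁ : ℝ), 0 ≤ C₁ ∧ Tendsto a l (𝓝 0) ∧ ∀ᶠ i in l,
      (∀ y, V (n i) (a i) y = 0 → |dfc (V (n i) (a i)) y| ≤ σ i * (1 + ‖y‖) ^ q) ∧
      DD (N i) (V (n i) (a i)) 0 + ‖lam (n i) (a i)‖ ^ 2 + σ i ^ 2
        ≤ C₁ * (dis (N i) (T i) (H i) + t i) := by
  obtain ⟨k, hk⟩ := exists_cut_pos hE G.tube0 G.v_cont G.inj
  obtain ⟨a, ha, hg⟩ := G.gauge h hn ht ht0 hk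
  have hna : Tendsto (fun i => (n i, a i)) l (atTop ×ˢ 𝓝 0) := hn.prodMk ha
  obtain ⟨ε, hε, herr⟩ := exists_small_choice (P := ℝ) ht ht0 (G := fun i ε => ∀ y,
    V (n i) (a i) y = 0 → |dfc (V (n i) (a i)) y - e (lam (n i) (a i)) y|
      ≤ (ε * ‖lam (n i) (a i)‖ + η (n i)) * (1 + ‖y‖) ^ q) fun ε hε => by
    filter_upwards [hna.eventually (G.err ε hε)] with i hi
    exact ⟨ε, by rw [Real.norm_of_nonneg hε.le], hi⟩
  set D : ι → ℝ := fun i => DD (N i) (V (n i) (a i)) 0 + ‖lam (n i) (a i)‖ ^ 2 with hD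
  have hd0 : ∀ i, 0 < dis (N i) (T i) (H i) + t i := fun i =>
    add_pos_of_nonneg_of_pos dis_nonneg (ht i)
  have hlD : ∀ i, ‖lam (n i) (a i)‖ ^ 2 ≤ D i := fun i =>
    le_add_of_nonneg_left (DD_nonneg 0)
  have key : ∃ C₀ : ℝ, 0 ≤ C₀ ∧ ∀ᶠ i in l, D i ≤ C₀ * (dis (N i) (T i) (H i) + t i) := by
    by_contra hcon
    push Not at hcon
    set S : ℕ → Set ι := fun j => {i | (j : ℝ) * (dis (N i) (T i) (H i) + t i) < D i} with hS
    have hfr : ∀ j : ℕ, (l ⊓ 𝓟 (S j)).NeBot := by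
      intro j
      rw [← frequently_mem_iff_neBot]
      exact hcon j j.cast_nonneg
    have hne : (⨅ j : ℕ, l ⊓ 𝓟 (S j)).NeBot := by
      have : Nonempty ι := (hfr 0).nonempty
      refine iInf_neBot_of_directed ?_ hfr
      refine directed_of_isDirected_le fun i j hij => ?_
      refine inf_le_inf_left _ (principal_mono.2 fun s hs => ?_)
      simp only [hS, mem_ofPred_eq] at hs ⊢
      refine lt_of_le_of_lt ?_ hs
      exact mul_le_mul_of_nonneg_right (by exact_mod_cast hij) (hd0 s).le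
    set U : Ultrafilter ι := Ultrafilter.of (⨅ j : ℕ, l ⊓ 𝓟 (S j)) with hU
    have hUl : (U : Filter ι) ≤ l :=
      (Ultrafilter.of_le _).trans ((iInf_le _ 0).trans inf_le_left)
    have hUS : ∀ j : ℕ, ∀ᶠ i in (U : Filter ι),
        (j : ℝ) * (dis (N i) (T i) (H i) + t i) < D i := by
      intro j
      have : (U : Filter ι) ≤ 𝓟 (S j) :=
        (Ultrafilter.of_le _).trans ((iInf_le _ j).trans inf_le_right)
      exact this (mem_principal_self _)
    have hpos : ∀ᶠ i in (U : Filter ι), 0 < D i := by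
      filter_upwards [hUS 0] with s hs
      simpa using hs
    have hq : Tendsto (fun i => (dis (N i) (T i) (H i) + t i) / D i) U (𝓝 0) := by
      rw [Metric.tendsto_nhds]
      intro δ hδ
      obtain ⟨j, hj⟩ := exists_nat_gt (1 / δ)
      filter_upwards [hUS j, hpos] with s hs hp
      have hd := hd0 s
      rw [Real.dist_eq, sub_zero, abs_of_nonneg (by positivity), div_lt_iff₀ hp]
      have hn' : 1 < δ * j := by rwa [div_lt_iff₀' hδ] at hj
      have h5 := mul_lt_mul_of_pos_left hs hδ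
      have h6 := le_mul_of_one_le_left hd.le hn'.le
      linarith
    refine blow hm hE (h.conv hUl) (fun x b hb => density_HS_le hE G.tube0 x hb) G.tube0
      (hUl (hna.eventually G.tube)) (fun R ε hε => hUl (hna.eventually (G.conv R ε hε)))
      G.e_cont G.e_le (σ := fun i => ε i * ‖lam (n i) (a i)‖ + η (n i)) (hUl herr)
      (Z := range fun b x => cut k x * V' b x) ?_ ?_ (G.nd_gauge hE hk) (D := D) (fun i => rfl)
      hpos ?_ ?_ ?_
    · rintro _ ⟨b, rfl⟩
      have hc := (continuous_cut k).mul (G.v_cont b)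
      exact ⟨hc, PB.of_compact hc (cut_compact k).mul_right⟩
    · rintro _ ⟨b, rfl⟩
      filter_upwards [hUl hg] with i hi using hi b
    · have := (G.tendsto_DD h hn ha).add ((G.lam_zero.comp hna).norm.pow 2)
      rw [norm_zero, zero_pow two_ne_zero, add_zero] at this
      exact this.mono_left hUl
    · refine squeeze_zero' ?_ ?_ hq
      · filter_upwards [hpos] with i hi using div_nonneg dis_nonneg hi.le
      · filter_upwards [hpos] with i hi
        gcongr
        linarith [ht i]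
    · have l1 := (hε.mono_left hUl).norm.add hq.sqrt
      rw [norm_zero, Real.sqrt_zero, add_zero] at l1
      refine squeeze_zero_norm' ?_ l1
      filter_upwards [hpos] with i hi
      have h1 : 0 < √(D i) := Real.sqrt_pos.2 hi
      have h2 : ‖lam (n i) (a i)‖ ≤ √(D i) := Real.le_sqrt_of_sq_le (hlD i)
      have h3 : |η (n i)| ≤ √(dis (N i) (T i) (H i) + t i) :=
        Real.abs_le_sqrt (by linarith [hη i, dis_nonneg (μ := N i) (T := T i) (H := H i)])
      rw [Real.sqrt_div (hd0 i).le, norm_mul, Real.norm_of_nonneg (inv_nonneg.2 h1.le),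
        inv_mul_le_iff₀ h1, mul_add, mul_div_cancel₀ _ h1.ne']
      refine (norm_add_le _ _).trans (add_le_add ?_ h3)
      rw [norm_mul, norm_norm, mul_comm]
      gcongr
  obtain ⟨C₀, hC₀, hst⟩ := key
  refine ⟨a, fun i => |C| * ‖lam (n i) (a i)‖ + |ε i * ‖lam (n i) (a i)‖ + η (n i)|,
    (1 + 2 * (|C| + 1) ^ 2) * C₀ + 2, by positivity, ha, ?_⟩
  have hε1 : ∀ᶠ i in l, ‖ε i‖ ≤ 1 := by
    have := hε.norm
    rw [norm_zero] at this
    exact this.eventually_le_const one_pos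
  filter_upwards [hst, herr, hna.eventually G.tube, hε1] with i h1 h2 h3 h4
  refine ⟨df_le_of_err h3 G.e_le h2, ?_⟩
  set L := ‖lam (n i) (a i)‖ with hL
  have hL0 : 0 ≤ L := norm_nonneg _
  have h5 : |ε i * L + η (n i)| ≤ L + |η (n i)| := by
    refine (abs_add_le _ _).trans (add_le_add ?_ le_rfl)
    rw [abs_mul, abs_of_nonneg hL0]
    exact mul_le_of_le_one_left hL0 h4
  have h6 : (|C| * L + |ε i * L + η (n i)|) ^ 2 ≤ ((|C| + 1) * L + |η (n i)|) ^ 2 :=
    pow_le_pow_left₀ (by positivity) (by linarith) 2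
  have h7 : ((|C| + 1) * L + |η (n i)|) ^ 2 ≤ 2 * (|C| + 1) ^ 2 * L ^ 2 + 2 * η (n i) ^ 2 := by
    rw [← sq_abs (η (n i))]
    nlinarith [sq_nonneg ((|C| + 1) * L - |η (n i)|)]
  have h8 : 2 * (|C| + 1) ^ 2 * L ^ 2
      ≤ 2 * (|C| + 1) ^ 2 * (C₀ * (dis (N i) (T i) (H i) + t i)) := by
    gcongr
    exact (hlD i).trans h1
  have h9 := hη i
  have h10 : 0 ≤ dis (N i) (T i) (H i) := dis_nonneg
  change D i + _ ≤ _
  nlinarith

end GSeq

end Vale.Agent.P218DY
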