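import Vale.Agent.P218DY.Blow2
import Vale.Agent.P218DH.Lower
import Vale.Agent.P218.H313.C2

/-! Slices near the model: squared distance, densities, and the pairing used for the gauge. -/

open MeasureTheory Set Filter Topology Metric
open scoped ENNReal NNReal RealInnerProductSpace

namespace Vale.Agent.P218DY

open Vale.Agent.P214 (proj divAlong)
open Vale.Agent.P218 Vale.Agent.P218.H313

set_option linter.unusedSectionVars false
set_option linter.unusedVariables false

variable {E : Type*} [NormedAddCommGroup E] [InnerProductSpace ℝ E] [FiniteDimensional ℝ E]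
  [MeasurableSpace E] [BorelSpace E]
variable {m : ℕ} {c K : ℝ}
variable {ι : Type*} {U : Ultrafilter ι} {N : ι → Measure E}
  {T : ι → E → Submodule ℝ E} {H : ι → E → E} {κ : Measure E}

/-- a choice of small solutions -/
lemma exists_small_choice {P : Type*} [NormedAddCommGroup P] {l : Filter ι} {t : ι → ℝ}
    (ht : ∀ i, 0 < t i) (ht0 : Tendsto t l (𝓝 0)) {G : ι → P → Prop}
    (h : ∀ ε : ℝ, 0 < ε → ∀ᶠ i in l, ∃ a, ‖a‖ ≤ ε ∧ G i a) :
    ∃ a : ι → P, Tendsto a l (𝓝 0) ∧ ∀ᶠ i in l, G i (a i) := by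
  classical
  have h1 : ∀ i, (∃ a, G i a) → ∃ a, G i a ∧ ∀ a', G i a' → ‖a‖ ≤ ‖a'‖ + t i := by
    intro i ⟨a₀, ha₀⟩
    have hne : ((fun a => ‖a‖) '' {a | G i a}).Nonempty := ⟨_, a₀, ha₀, rfl⟩
    have hbd : BddBelow ((fun a => ‖a‖) '' {a | G i a}) :=
      ⟨0, by rintro _ ⟨a, -, rfl⟩; exact norm_nonneg a⟩
    obtain ⟨_, ⟨a, ha, rfl⟩, h2⟩ := exists_lt_of_csInf_lt hne (lt_add_of_pos_right _ (ht i))
    refine ⟨a, ha, fun a' ha' => h2.le.trans ?_⟩
    have := csInf_le hbd ⟨a', ha', rfl⟩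
    linarith
  choose! a ha using h1
  refine ⟨a, ?_, ?_⟩
  · rw [NormedAddGroup.tendsto_nhds_zero]
    intro ε hε
    filter_upwards [h (ε / 2) (half_pos hε), ht0.eventually_lt_const (half_pos hε)] with i hi hti
    obtain ⟨a', h1, h2⟩ := hi
    have := (ha i ⟨a', h2⟩).2 a' h2
    linarith
  · filter_upwards [h 1 one_pos] with i hi
    obtain ⟨a', -, h2⟩ := hi
    exact (ha i ⟨a', h2⟩).1

/-- the squared distance to the moving hypersurfaces tends to zero -/
lemma tendsto_DD (h : Conv U m N T H κ) {W : E → ℝ} {Wi : ι → E → ℝ} (hW : TubeG W c K)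
    (hW0 : ∀ᵐ x ∂κ, W x = 0) (hWi : ∀ᶠ i in (U : Filter ι), TubeG (Wi i) c K)
    (hconv : ∀ R ε : ℝ, 0 < ε → ∀ᶠ i in (U : Filter ι), ∀ x, ‖x‖ ≤ R → |Wi i x - W x| ≤ ε) :
    Tendsto (fun i => DD (N i) (Wi i) 0) U (𝓝 0) := by
  obtain ⟨M, hM⟩ := h.mom 1
  have l1 : Tendsto (fun i => ∫ x, W x ^ 2 * rho x ∂(N i)) U (𝓝 0) := by
    have h1 := h.lim_PB (f := fun x => W x ^ 2) (hW.cont.pow 2) (hW.pg.b0.pow 2)
    have e : ∫ x, W x ^ 2 * rho x ∂κ = 0 := by
      refine integral_eq_zero_of_ae ?_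
      filter_upwards [hW0] with x hx
      simp [hx]
    rwa [e] at h1
  have hK := hW.K0
  rw [Metric.tendsto_nhds]
  intro ε hε
  set δ : ℝ := ε / (4 * (|M| + 1)) with hδ
  have hδ0 : 0 < δ := by positivity
  filter_upwards [hM, h.sl, hWi, hconv (4 * K ^ 2 / δ) (min 1 δ) (lt_min one_pos hδ0),
    l1.eventually_lt_const (show 0 < ε / 4 by positivity)] with i h1 hs hi h2 h3
  rw [Real.dist_eq, sub_zero, abs_of_nonneg (DD_nonneg 0), DD_zero_eq]
  have i3 : Integrable (fun x => W x ^ 2 * rho x) (N i) :=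
    hs.integrable_PB (hW.cont.pow 2).aestronglyMeasurable (hW.pg.b0.pow 2)
  have i4 : Integrable (fun x => Wi i x ^ 2 * rho x) (N i) :=
    hs.integrable_PB (hi.cont.pow 2).aestronglyMeasurable (hi.pg.b0.pow 2)
  have e1 : ∫ x, Wi i x ^ 2 * rho x ∂(N i)
      ≤ ∫ x, (2 * (W x ^ 2 * rho x) + 2 * δ * ((1 + ‖x‖) ^ 1 * rho x)) ∂(N i) := by
    refine integral_mono i4 ((i3.const_mul _).add ((hs.mom 1).const_mul _)) fun x => ?_
    have h5 := rho_pos x
    have h6 : (Wi i x - W x) ^ 2 ≤ δ * (1 + ‖x‖) := by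
      have hx0 := norm_nonneg x
      by_cases hx : ‖x‖ ≤ 4 * K ^ 2 / δ
      · have h7 := h2 x hx
        have h8 : |Wi i x - W x| ≤ 1 := h7.trans (min_le_left _ _)
        have h9 : |Wi i x - W x| ≤ δ := h7.trans (min_le_right _ _)
        rw [← sq_abs]
        nlinarith [abs_nonneg (Wi i x - W x), mul_nonneg hδ0.le hx0]
      · push Not at hx
        rw [div_lt_iff₀ hδ0] at hx
        have h7 := abs_le.1 (hi.b0 x)
        have h8 := abs_le.1 (hW.b0 x)
        have h9 : (Wi i x - W x) ^ 2 ≤ (2 * K) ^ 2 := by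
          apply sq_le_sq'
          · linarith
          · linarith
        nlinarith
    have h7 : Wi i x ^ 2 ≤ 2 * W x ^ 2 + 2 * (δ * (1 + ‖x‖)) := by
      nlinarith [sq_nonneg (Wi i x - 2 * W x)]
    calc Wi i x ^ 2 * rho x ≤ (2 * W x ^ 2 + 2 * (δ * (1 + ‖x‖))) * rho x := by gcongr
      _ = _ := by ring
  rw [integral_add (i3.const_mul _) ((hs.mom 1).const_mul _), integral_const_mul,
    integral_const_mul] at e1
  have h4 : δ * ∫ x, (1 + ‖x‖) ^ 1 * rho x ∂(N i) ≤ δ * (|M| + 1) := by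
    gcongr
    linarith [le_abs_self M]
  have h5 : δ * (|M| + 1) = ε / 4 := by
    rw [hδ]; field_simp
  linarith

/-- the density ratio is Lipschitz in the centre -/
lemma th_sub_le {μ : Measure E} [IsFiniteMeasureOnCompacts μ] {CR r : ℝ} (hr : 0 < r)
    (hr1 : r ≤ 1 / 2) (hR : Ratio m μ CR) {x y : E} (hxy : ‖x - y‖ ≤ 1 / 2) :
    th m μ x r ≤ th m μ y r + 4 * |CR| / r ^ (m + 1) * ‖x - y‖ := by
  have hprop : ProperSpace E := FiniteDimensional.proper_real E
  have hfin : μ (closedBall y 1) < ⊤ := (isCompact_closedBall y 1).measure_lt_top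
  have i1 : Integrable ((closedBall y 1).indicator fun _ => 4 / r * ‖x - y‖) μ :=
    (integrable_indicator_iff measurableSet_closedBall).2 (integrableOn_const hfin.ne)
  have h1 : ∫ z, ker (r⁻¹ • (z - x)) ∂μ ≤ ∫ z, (ker (r⁻¹ • (z - y))
      + (closedBall y 1).indicator (fun _ => 4 / r * ‖x - y‖) z) ∂μ := by
    refine integral_mono (integrable_ker_scale x hr) ((integrable_ker_scale y hr).add i1)
      fun z => ?_
    by_cases hz : z ∈ closedBall y 1
    · simp only [indicator_of_mem hz]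
      have h2 := abs_ker_sub_le (r⁻¹ • (z - x)) (r⁻¹ • (z - y))
      have e : ‖r⁻¹ • (z - x) - r⁻¹ • (z - y)‖ = r⁻¹ * ‖x - y‖ := by
        rw [← smul_sub, norm_smul, Real.norm_of_nonneg (inv_nonneg.2 hr.le), ← norm_neg]
        congr 2; abel
      rw [e] at h2
      have h3 := le_abs_self (ker (r⁻¹ • (z - x)) - ker (r⁻¹ • (z - y)))
      rw [div_eq_mul_inv]
      linarith
    · simp only [indicator_of_notMem hz, add_zero]
      have h2 : z ∉ closedBall x r := by
        intro h3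
        apply hz
        rw [mem_closedBall, dist_eq_norm] at h3 ⊢
        have := norm_add_le (z - x) (x - y)
        rw [sub_add_sub_cancel] at this
        linarith
      rw [ker_scale_zero' hr h2]
      exact kern_nonneg _
  rw [integral_add (integrable_ker_scale y hr) i1, integral_indicator measurableSet_closedBall,
    setIntegral_const, smul_eq_mul] at h1
  have h2 := (hR y 1 one_pos le_rfl).trans (mul_le_mul_of_nonneg_right (le_abs_self CR)
    (by positivity))
  rw [one_pow, mul_one] at h2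
  have h3 : μ.real (closedBall y 1) * (4 / r * ‖x - y‖) ≤ |CR| * (4 / r * ‖x - y‖) := by
    gcongr
  unfold th
  have hrm : 0 < r ^ m := by positivity
  rw [div_le_iff₀ hrm, add_mul, div_mul_cancel₀ _ hrm.ne']
  have e : 4 * |CR| / r ^ (m + 1) * ‖x - y‖ * r ^ m = |CR| * (4 / r * ‖x - y‖) := by
    field_simp
    ring
  rw [e]
  linarith

/-- densities at a fixed scale, at the points of the moving hypersurfaces in a ball -/
lemma core_density (h : Conv U m N T H κ) {W : E → ℝ} {Wi : ι → E → ℝ} (hW : Continuous W)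
    (hconv : ∀ R ε : ℝ, 0 < ε → ∀ᶠ i in (U : Filter ι), ∀ x, ‖x‖ ≤ R → |Wi i x - W x| ≤ ε)
    {r b b' : ℝ} (hr : 0 < r) (hr1 : r ≤ 1 / 2) (hb : b < b')
    (hκ : ∀ x, W x = 0 → th m κ x r ≤ b) (R : ℝ) :
    ∀ᶠ i in (U : Filter ι), ∀ x, Wi i x = 0 → ‖x‖ ≤ R → th m (N i) x r ≤ b' := by
  have hprop : ProperSpace E := FiniteDimensional.proper_real E
  by_contra hcon
  rw [← Ultrafilter.eventually_not] at hcon
  have h1 : ∀ᶠ i in (U : Filter ι), ∃ x, Wi i x = 0 ∧ ‖x‖ ≤ R ∧ b' < th m (N i) x r := by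
    filter_upwards [hcon] with i hi
    push Not at hi
    exact hi
  obtain ⟨x, hx⟩ := h1.choice
  obtain ⟨y, -, hy⟩ := (isCompact_closedBall (0 : E) R).ultrafilter_le_nhds (U.map x) (by
    rw [le_principal_iff]
    change ∀ᶠ i in (U : Filter ι), x i ∈ closedBall (0 : E) R
    filter_upwards [hx] with i hi using by simpa using hi.2.1)
  have hxy : Tendsto x U (𝓝 y) := hy
  have hy0 : W y = 0 := by
    refine tendsto_nhds_unique ((hW.tendsto y).comp hxy) ?_
    rw [Metric.tendsto_nhds]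
    intro ε hε
    filter_upwards [hx, hconv R (ε / 2) (half_pos hε)] with i h2 h3
    have h4 := h3 _ h2.2.1
    rw [h2.1, zero_sub, abs_neg] at h4
    rw [Real.dist_eq, sub_zero]
    exact h4.trans_lt (half_lt_self hε)
  obtain ⟨CR, hCR⟩ := h.ratio
  have hn : Tendsto (fun i => ‖x i - y‖) U (𝓝 0) := tendsto_iff_norm_sub_tendsto_zero.1 hxy
  have l1 : Tendsto (fun i => th m (N i) y r + 4 * |CR| / r ^ (m + 1) * ‖x i - y‖) U
      (𝓝 (th m κ y r + 4 * |CR| / r ^ (m + 1) * 0)) :=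
    ((h.lim _ (continuous_ker_scale r y) (hasCompactSupport_ker_scale hr y)).div_const _).add
      (hn.const_mul _)
  rw [mul_zero, add_zero] at l1
  have h2 := l1.eventually_lt_const ((hκ y hy0).trans_lt hb)
  obtain ⟨i, h3, h4, h5, h6, h7⟩ := (hx.and (h2.and (hCR.and (h.sl.and
    (hn.eventually_le_const (show (0 : ℝ) < 1 / 2 by norm_num)))))).exists
  have := h6.mc.fin
  have h8 := th_sub_le (m := m) (μ := N i) hr hr1 h5 h7
  linarith [h3.2.2]

variable {P : Type*} [NormedAddCommGroup P] [NormedSpace ℝ P] [FiniteDimensional ℝ P]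

/-- the velocities are independent on a bounded part of the model -/
lemma exists_cut_pos (hE : Module.finrank ℝ E = m + 1) {W : E → ℝ} (hW : TubeG W c K)
    {V' : P →ₗ[ℝ] (E → ℝ)} (hV' : ∀ b, Continuous (V' b))
    (hinj : ∀ b, (∀ x, W x = 0 → V' b x = 0) → b = 0) :
    ∃ n : ℕ, ∀ b, b ≠ 0 → 0 < ∫ x, V' b x * (cut n x * V' b x * rho x) ∂(HS m W) := by
  have := locFin_HS (m := m) hE hW
  let A : ℕ → Submodule ℝ P := fun n =>
    { carrier := {b | ∀ x, W x = 0 → ‖x‖ ≤ n → V' b x = 0}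
      add_mem' := fun {a b} ha hb x h1 h2 => by
        rw [map_add, Pi.add_apply, ha x h1 h2, hb x h1 h2, add_zero]
      zero_mem' := fun x _ _ => by rw [map_zero]; rfl
      smul_mem' := fun k a ha x h1 h2 => by
        rw [map_smul, Pi.smul_apply, ha x h1 h2, smul_zero] }
  have hA : ∀ i j : ℕ, i ≤ j → A j ≤ A i := fun i j hij b hb x h1 h2 =>
    hb x h1 (h2.trans (by exact_mod_cast hij))
  obtain ⟨n, hn⟩ := IsArtinian.monotone_stabilizes
    (⟨fun n => OrderDual.toDual (A n), fun i j hij => hA i j hij⟩ : ℕ →o (Submodule ℝ P)ᵒᵈ)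
  refine ⟨n, fun b hb => ?_⟩
  have hc : Continuous fun x => V' b x * (cut n x * V' b x * rho x) :=
    (hV' b).mul (((continuous_cut n).mul (hV' b)).mul continuous_rho)
  have hnn : ∀ x, 0 ≤ V' b x * (cut n x * V' b x * rho x) := fun x => by
    have h1 := cut_nonneg n x
    have h2 := rho_pos x
    have e : V' b x * (cut n x * V' b x * rho x) = V' b x ^ 2 * cut n x * rho x := by ring
    rw [e]; positivity
  have hint : Integrable (fun x => V' b x * (cut n x * V' b x * rho x)) (HS m W) :=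
    hc.integrable_of_hasCompactSupport (cut_compact n).mul_right.mul_right.mul_left
  refine (integral_nonneg hnn).lt_of_ne fun h0 => hb (hinj b fun x hx => ?_)
  have h1 := (integral_eq_zero_iff_of_nonneg hnn hint).1 h0.symm
  have h2 := eq_zero_of_ae_HS hE hW hc h1
  have h3 : b ∈ A n := by
    intro y hy hyn
    have h4 := h2 y hy
    have h5 : cut n y = 1 := H552.chi_eq_one (cut_pos_arg n) (by linarith)
    rw [h5, one_mul, ← mul_assoc, mul_eq_zero, mul_self_eq_zero] at h4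
    exact h4.resolve_right (rho_pos y).ne'
  obtain ⟨k, hk⟩ := exists_nat_ge ‖x‖
  have h4 : A n = A (max n k) := congrArg OrderDual.ofDual (hn (max n k) (le_max_left _ _))
  rw [h4] at h3
  exact h3 x hx (hk.trans (by exact_mod_cast le_max_right n k))

end Vale.Agent.P218DY
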