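import Vale.Agent.P218DY.Jac
import Vale.Agent.P218.H313.Blow

/-! The normalised height function. -/

open MeasureTheory Set Filter Topology Metric
open scoped ENNReal NNReal RealInnerProductSpace

namespace Vale.Agent.P218DY

open Vale.Agent.P214 (proj divAlong)
open Vale.Agent.P218 Vale.Agent.P218.H313

set_option linter.unusedSectionVars false
set_option linter.unusedVariables false

variable {E : Type*} [NormedAddCommGroup E] [InnerProductSpace ℝ E] [FiniteDimensional ℝ E]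
  [MeasurableSpace E] [BorelSpace E]
variable {m : ℕ} {μ : Measure E} {T : E → Submodule ℝ E} {H : E → E} {W : E → ℝ} {c K d : ℝ}

/-- the normalised height -/
noncomputable def nd (d : ℝ) (W : E → ℝ) (x : E) : ℝ := (√d)⁻¹ * W x

lemma nd_int (hp : 0 < d) (f : E → ℝ) :
    ∫ x, nd d W x ^ 2 * f x * rho x ∂μ = (∫ x, W x ^ 2 * f x * rho x ∂μ) / d := by
  rw [← integral_div]
  congr 1; ext x
  have : (√d)⁻¹ ^ 2 = d⁻¹ := by rw [inv_pow, Real.sq_sqrt hp.le]
  simp only [nd, mul_pow, this]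
  field_simp

lemma nd_norm (hp : 0 < d) : ∫ x, nd d W x ^ 2 * rho x ∂μ = DD μ W 0 / d := by
  have h1 := nd_int (μ := μ) (W := W) hp (fun _ => 1)
  simp only [mul_one] at h1
  rw [h1, ← DD_zero_eq]

lemma nd_cont (hW : TubeG W c K) : Continuous (nd d W) := continuous_const.mul hW.cont

lemma nd_pb (hW : TubeG W c K) : PB (nd d W) := hW.pg.b0.const_mul _

lemma nd_local (hS : GSlice m μ T H) (hW : TubeG W c K) (hp : 0 < d) (hd : DD μ W 0 ≤ d)
    {C₁ C₂ M₂ : ℝ} (h1 : DD μ W 1 / d ≤ C₂) (h2 : TG μ T W 0 / d ≤ C₁)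
    (h3 : VW μ T H W 0 / d ≤ K ^ 2) (h4 : ∫ x, (1 + ‖x‖) ^ 2 * rho x ∂μ ≤ M₂)
    (h5 : dis μ T H ≤ 1) (R : ℝ) :
    ∫ x in closedBall (0 : E) R, (nd d W x ^ 2 + ‖proj (T x) (grad (nd d W) x)‖ ^ 2
      + ‖H x‖ ^ 2 + nd d W x ^ 2 * ‖H x‖) ∂μ
      ≤ Real.exp (R ^ 2 / 4) * (1 + C₁ + 2 + M₂ + K ^ 2 + C₂) := by
  have hsp : 0 < √d := Real.sqrt_pos.2 hp
  have hgrad : ∀ x, grad (nd d W) x = (√d)⁻¹ • grad W x := fun x =>
    grad_const_mul _ (hW.diff x)
  have hsq : (√d)⁻¹ ^ 2 = d⁻¹ := by rw [inv_pow, Real.sq_sqrt hp.le]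
  have j1 : Integrable (fun x => nd d W x ^ 2 * rho x) μ :=
    hS.integrable_PB ((nd_cont hW).pow 2).aestronglyMeasurable ((nd_pb hW).pow 2)
  have eP : (fun x => ‖proj (T x) (grad (nd d W) x)‖ ^ 2 * rho x)
      = fun x => d⁻¹ * (wt 0 x * ‖proj (T x) (grad W x)‖ ^ 2 * rho x) := by
    ext x
    rw [hgrad, map_smul, norm_smul, mul_pow, norm_inv, Real.norm_of_nonneg hsp.le, hsq]
    simp only [wt, pow_zero]; ring
  have j2 : Integrable (fun x => ‖proj (T x) (grad (nd d W) x)‖ ^ 2 * rho x) μ := by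
    rw [eP]; exact (hW.int_TG hS 0).const_mul _
  have j3 := hS.int_vel_sq
  have j4 := hS.mom 2
  have eV : (fun x => nd d W x ^ 2 * ‖vel T H x‖ ^ 2 * rho x)
      = fun x => d⁻¹ * (W x ^ 2 * wt 0 x * ‖vel T H x‖ ^ 2 * rho x) := by
    ext x
    simp only [nd, mul_pow, hsq, wt, pow_zero]; ring
  have j5 : Integrable (fun x => nd d W x ^ 2 * ‖vel T H x‖ ^ 2 * rho x) μ := by
    rw [eV]; exact (hW.int_VW hS 0).const_mul _
  have j6 : Integrable (fun x => nd d W x ^ 2 * wt 1 x * rho x) μ :=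
    hS.integrable_PB (((nd_cont hW).pow 2).mul (PG.wt 1).cont).aestronglyMeasurable
      (((nd_pb hW).pow 2).mul (PG.wt 1).b0)
  have f2 : ∫ x, ‖proj (T x) (grad (nd d W) x)‖ ^ 2 * rho x ∂μ = TG μ T W 0 / d := by
    rw [eP, integral_const_mul, div_eq_inv_mul]; rfl
  have f5 : ∫ x, nd d W x ^ 2 * ‖vel T H x‖ ^ 2 * rho x ∂μ = VW μ T H W 0 / d := by
    rw [eV, integral_const_mul, div_eq_inv_mul]; rfl
  have f6 : ∫ x, nd d W x ^ 2 * wt 1 x * rho x ∂μ = DD μ W 1 / d := nd_int hp (wt 1)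
  have f1 := nd_norm (μ := μ) (W := W) hp
  have f1' : DD μ W 0 / d ≤ 1 := (div_le_one hp).2 hd
  have k1 : Integrable (fun x => 1 * (nd d W x ^ 2 * rho x)
      + 1 * (‖proj (T x) (grad (nd d W) x)‖ ^ 2 * rho x)
      + 2 * (‖vel T H x‖ ^ 2 * rho x)) μ :=
    ((j1.const_mul 1).add (j2.const_mul 1)).add (j3.const_mul 2)
  have k2 : Integrable (fun x => 1 * ((1 + ‖x‖) ^ 2 * rho x)
      + 1 * (nd d W x ^ 2 * ‖vel T H x‖ ^ 2 * rho x)
      + 1 * (nd d W x ^ 2 * wt 1 x * rho x)) μ :=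
    ((j4.const_mul 1).add (j5.const_mul 1)).add (j6.const_mul 1)
  have e1 := integral_comb j1 j2 j3 1 1 2
  have e2 := integral_comb j4 j5 j6 1 1 1
  have hGint : ∫ x, ((1 * (nd d W x ^ 2 * rho x)
      + 1 * (‖proj (T x) (grad (nd d W) x)‖ ^ 2 * rho x)
      + 2 * (‖vel T H x‖ ^ 2 * rho x)) + (1 * ((1 + ‖x‖) ^ 2 * rho x)
      + 1 * (nd d W x ^ 2 * ‖vel T H x‖ ^ 2 * rho x)
      + 1 * (nd d W x ^ 2 * wt 1 x * rho x))) ∂μ ≤ 1 + C₁ + 2 + M₂ + K ^ 2 + C₂ := by
    rw [integral_add k1 k2, e1, e2, f1, f2, f5, f6]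
    unfold dis at h5
    linarith
  have hcomp : ∫ x in closedBall (0 : E) R, (nd d W x ^ 2
      + ‖proj (T x) (grad (nd d W) x)‖ ^ 2 + ‖H x‖ ^ 2 + nd d W x ^ 2 * ‖H x‖) ∂μ
      ≤ ∫ x in closedBall (0 : E) R, Real.exp (R ^ 2 / 4) * ((1 * (nd d W x ^ 2 * rho x)
      + 1 * (‖proj (T x) (grad (nd d W) x)‖ ^ 2 * rho x)
      + 2 * (‖vel T H x‖ ^ 2 * rho x)) + (1 * ((1 + ‖x‖) ^ 2 * rho x)
      + 1 * (nd d W x ^ 2 * ‖vel T H x‖ ^ 2 * rho x)
      + 1 * (nd d W x ^ 2 * wt 1 x * rho x))) ∂μ := by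
    refine integral_mono_of_nonneg (Eventually.of_forall fun x => by
      simp only [Pi.zero_apply]; positivity) ((k1.add k2).const_mul _).integrableOn ?_
    refine (ae_restrict_iff' measurableSet_closedBall).2 (Eventually.of_forall fun x hx => ?_)
    have hxR : ‖x‖ ≤ R := by simpa using hx
    refine (nh_pointwise (T := T) hxR _ _).trans (le_of_eq ?_)
    ring
  refine hcomp.trans ?_
  refine (setIntegral_le_integral ((k1.add k2).const_mul _) (Eventually.of_forall fun x => ?_)).trans ?_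
  · have h1 := wt_pos 1 x
    have h2 := rho_pos x
    simp only [Pi.zero_apply, Pi.add_apply]
    positivity
  · rw [integral_const_mul]
    exact mul_le_mul_of_nonneg_left hGint (Real.exp_pos _).le

/-- most of the normalised squared distance lies in a compact set -/
lemma nd_low (hS : GSlice m μ T H) (hW : TubeG W c K) (hp : 0 < d) (hd : DD μ W 0 ≤ d)
    {C₂ : ℝ} (h1 : DD μ W 1 / d ≤ C₂) (n : ℕ) (hn : C₂ / ((n : ℝ) + 1) ^ 2 ≤ 1 / 2) :
    DD μ W 0 / d - 1 / 2 ≤ ∫ x, cut n x * rho x * nd d W x ^ 2 ∂μ := by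
  have j1 : Integrable (fun x => nd d W x ^ 2 * rho x) μ :=
    hS.integrable_PB ((nd_cont hW).pow 2).aestronglyMeasurable ((nd_pb hW).pow 2)
  have j6 : Integrable (fun x => nd d W x ^ 2 * wt 1 x * rho x) μ :=
    hS.integrable_PB (((nd_cont hW).pow 2).mul (PG.wt 1).cont).aestronglyMeasurable
      (((nd_pb hW).pow 2).mul (PG.wt 1).b0)
  have j7 : Integrable (fun x => cut n x * rho x * nd d W x ^ 2) μ := by
    refine j1.mono' (((continuous_cut n).mul continuous_rho).mul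
      ((nd_cont hW).pow 2)).aestronglyMeasurable (Eventually.of_forall fun x => ?_)
    have h1 := cut_nonneg n x
    have h2 := cut_le_one n x
    have h3 := rho_pos x
    rw [Real.norm_of_nonneg (by positivity)]
    have h4 : 0 ≤ nd d W x ^ 2 * rho x := by positivity
    calc cut n x * rho x * nd d W x ^ 2 = cut n x * (nd d W x ^ 2 * rho x) := by ring
      _ ≤ nd d W x ^ 2 * rho x := mul_le_of_le_one_left h4 h2
  have e1 : ∫ x, nd d W x ^ 2 * rho x ∂μ - ∫ x, cut n x * rho x * nd d W x ^ 2 ∂μ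
      ≤ 1 / ((n : ℝ) + 1) ^ 2 * ∫ x, nd d W x ^ 2 * wt 1 x * rho x ∂μ := by
    rw [← integral_sub j1 j7, ← integral_const_mul]
    refine integral_mono (j1.sub j7) (j6.const_mul _) fun x => ?_
    have h1 : 1 - cut n x ≤ wt 1 x / ((n : ℝ) + 1) ^ 2 := by
      by_cases hx : ‖x‖ ≤ (n : ℝ) + 1
      · have : cut n x = 1 := H552.chi_eq_one (cut_pos_arg n) hx
        rw [this, sub_self]
        have := wt_pos 1 x
        positivity
      · push Not at hx
        have h2 : 1 ≤ wt 1 x / ((n : ℝ) + 1) ^ 2 := by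
          rw [le_div_iff₀ (by positivity)]
          simp only [wt, pow_one, one_mul]
          have h3 := cut_pos_arg n
          nlinarith
        have h3 := cut_nonneg n x
        linarith
    have h2 : 0 ≤ nd d W x ^ 2 * rho x := by have := rho_pos x; positivity
    calc nd d W x ^ 2 * rho x - cut n x * rho x * nd d W x ^ 2
        = (1 - cut n x) * (nd d W x ^ 2 * rho x) := by ring
      _ ≤ (wt 1 x / ((n : ℝ) + 1) ^ 2) * (nd d W x ^ 2 * rho x) :=
          mul_le_mul_of_nonneg_right h1 h2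
      _ = 1 / ((n : ℝ) + 1) ^ 2 * (nd d W x ^ 2 * wt 1 x * rho x) := by ring
  have f6 : ∫ x, nd d W x ^ 2 * wt 1 x * rho x ∂μ = DD μ W 1 / d := nd_int hp (wt 1)
  rw [nd_norm hp, f6] at e1
  have e2 : 1 / ((n : ℝ) + 1) ^ 2 * (DD μ W 1 / d) ≤ C₂ / ((n : ℝ) + 1) ^ 2 := by
    rw [one_div, inv_mul_eq_div]
    gcongr
  linarith

/-- change of the test function -/
lemma nd_diff (hS : GSlice m μ T H) (hW : TubeG W c K) (hp : 0 < d) (hd' : DD μ W 0 ≤ d) {M δ : ℝ}
    (hM : ∫ x, rho x ∂μ ≤ M) {f g : E → ℝ} (hf : Continuous f) (hfb : PB f)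
    (hg : Continuous g) (hgb : PB g) (hd : ∀ x, |g x - f x| ≤ δ) (hδ : 0 ≤ δ) :
    |∫ x, nd d W x * f x * rho x ∂μ - ∫ x, nd d W x * g x * rho x ∂μ| ≤ δ * √M := by
  have i1 : Integrable (fun x => nd d W x * f x * rho x) μ :=
    hS.integrable_PB ((nd_cont hW).mul hf).aestronglyMeasurable ((nd_pb hW).mul hfb)
  have i2 : Integrable (fun x => nd d W x * g x * rho x) μ :=
    hS.integrable_PB ((nd_cont hW).mul hg).aestronglyMeasurable ((nd_pb hW).mul hgb)
  have i3 : Integrable (fun x => |nd d W x| * 1 * rho x) μ := by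
    have := hS.integrable_PB (nd_cont (d := d) hW).norm.aestronglyMeasurable (nd_pb hW).norm
    simpa using this
  have i4 : Integrable (fun x => |nd d W x| ^ 2 * rho x) μ := by
    have := hS.integrable_PB ((nd_cont (d := d) hW).pow 2).aestronglyMeasurable ((nd_pb hW).pow 2)
    simpa using this
  have i5 : Integrable (fun x => (1 : ℝ) ^ 2 * rho x) μ := by simpa using hS.mom 0
  have cs := abs_integral_mul_le (fun x => (rho_pos x).le) i4 i5 i3
  have e1 : √(∫ x, |nd d W x| ^ 2 * rho x ∂μ) ≤ 1 := by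
    have := nd_norm (μ := μ) (W := W) hp
    simp only [sq_abs]
    rw [this, Real.sqrt_le_one]
    exact (div_le_one hp).2 hd'
  replace cs := cs.trans (mul_le_of_le_one_left (Real.sqrt_nonneg _) e1)
  simp only [one_pow, one_mul, mul_one] at cs
  have i6 : Integrable (fun x => |nd d W x| * rho x) μ := by simpa using i3
  rw [← integral_sub i1 i2, ← Real.norm_eq_abs]
  have e2 : ‖∫ x, (nd d W x * f x * rho x - nd d W x * g x * rho x) ∂μ‖
      ≤ ∫ x, δ * (|nd d W x| * rho x) ∂μ := by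
    refine norm_integral_le_of_norm_le (i6.const_mul _) (Eventually.of_forall fun x => ?_)
    have e3 : nd d W x * f x * rho x - nd d W x * g x * rho x
        = (f x - g x) * (nd d W x * rho x) := by ring
    rw [e3, norm_mul, norm_mul, Real.norm_of_nonneg (rho_pos x).le, Real.norm_eq_abs,
      Real.norm_eq_abs, abs_sub_comm]
    exact mul_le_mul_of_nonneg_right (hd x) (mul_nonneg (abs_nonneg _) (rho_pos x).le)
  rw [integral_const_mul] at e2
  refine e2.trans (mul_le_mul_of_nonneg_left ?_ hδ)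
  exact (le_abs_self _).trans (cs.trans (Real.sqrt_le_sqrt hM))

end Vale.Agent.P218DY
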