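import Vale.Agent.P218DY.Defs
import Vale.Agent.P218.H313.Near
import Vale.Agent.P218.H313.Final

/-! BLUEPRINT ONLY (statements with sorry). Never import this file. The blocks are proved, with the
same statements, in the namespace `Vale.Agent.P218DY` (or in the directory of the seat that takes
the block). -/

open MeasureTheory Set Filter Topology Metric
open scoped ENNReal NNReal RealInnerProductSpace

namespace Vale.Agent.P218DY.Plan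

open Vale.Agent.P214 (proj IsApproxTangent)
open Vale.Agent.P218 Vale.Agent.P218DY
open Vale.Agent.P218.H313
open Vale.Agent.P218.H63 (gaussArea)

variable {E : Type*} [NormedAddCommGroup E] [InnerProductSpace ℝ E] [FiniteDimensional ℝ E]
  [MeasurableSpace E] [BorelSpace E]
variable {P : Type*} [NormedAddCommGroup P] [NormedSpace ℝ P] [FiniteDimensional ℝ P]
variable {Λ : Type*} [NormedAddCommGroup Λ] [NormedSpace ℝ Λ] [FiniteDimensional ℝ Λ]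
variable {m : ℕ}

/-- MAIN -/
theorem unique_of_loj (hm : 0 < m) (hE : Module.finrank ℝ E = m + 1)
    {w : P → E → ℝ} {v : P →ₗ[ℝ] (E → ℝ)} {e : Λ →ₗ[ℝ] (E → ℝ)} {lam : P → Λ} {δ C : ℝ} {q : ℕ}
    (hF : IsLojFamily m w v e lam δ C q) {μ : ℝ → Measure E} (hμ : IsIntegralBrakkeFlow m μ)
    (h0 : μ 0 univ < ⊤) (x₀ : E) {t₀ : ℝ} (ht : 0 < t₀)
    (hκ : (μH[m] : Measure E).restrict {x | w 0 x = 0} ∈ tangentSlices m μ x₀ t₀) :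
    TangentFlowUnique m μ x₀ t₀ := sorry

/-- DY-D -/
theorem converge_of_loj {N : ℝ → Measure E} {T : ℝ → E → Submodule ℝ E} {H : ℝ → E → E} {s₀ : ℝ}
    (h : RF m N T H s₀) (hslow : Slow N s₀) {κ : Measure E} [IsLocallyFiniteMeasure κ]
    (hseq : ∃ τ : ℕ → ℝ, Tendsto τ atTop atTop ∧ WeakTendsto (fun i => N (τ i)) κ)
    {I : ℝ → Prop} (hI : ∀ᵐ s : ℝ, s₀ ≤ s → I s) {C β : ℝ} (hβ : 1 / 2 < β)
    (hloj : ∀ᶠ s in nearF m N T H κ, I s → FA (N s) - FA κ ≤ C * dis (N s) (T s) (H s) ^ β)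
    {φ : E → ℝ} (hφ : ContDiff ℝ 2 φ) (hφc : HasCompactSupport φ) :
    ∃ L, Tendsto (fun s => ∫ x, φ x ∂(N s)) atTop (𝓝 L) := sorry

/-- DY-I -/
theorem exists_RF_intg {μ : ℝ → Measure E} (hμ : IsIntegralBrakkeFlow m μ) (h0 : μ 0 univ < ⊤)
    (x₀ : E) {t₀ : ℝ} (ht : 0 < t₀) :
    ∃ (T : ℝ → E → Submodule ℝ E) (H : ℝ → E → E) (s₀ : ℝ),
      RF m (fun s => H552.NN m μ x₀ t₀ (s / 2)) T H s₀ ∧
      ∀ᵐ s : ℝ, s₀ ≤ s → Intg m (H552.NN m μ x₀ t₀ (s / 2)) (T s) := sorry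

/-- DY-G -/
theorem exists_gauge {ι : Type*} {l : Filter ι} {N : ι → Measure E} {κ : Measure E}
    [IsLocallyFiniteMeasure κ] (hN : ∀ᶠ i in l, IsFiniteMeasureOnCompacts (N i))
    (hlim : ∀ φ : E → ℝ, Continuous φ → HasCompactSupport φ →
      Tendsto (fun i => ∫ x, φ x ∂(N i)) l (𝓝 (∫ x, φ x ∂κ)))
    {V : ι → P → E → ℝ} {V' z : P →ₗ[ℝ] (E → ℝ)} {R : ℝ}
    (hV : ∀ᶠ p : ι × P in l ×ˢ 𝓝 0, Continuous (V p.1 p.2)) (hV' : ∀ b, Continuous (V' b))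
    (hz : ∀ b, Continuous (z b)) (hzR : ∀ b x, R < ‖x‖ → z b x = 0)
    (hcont : ∀ᶠ p : ι × P in l ×ˢ 𝓝 0, ∀ ε : ℝ, 0 < ε → ∀ᶠ a in 𝓝 p.2, ∀ x, ‖x‖ ≤ R →
      |V p.1 a x - V p.1 p.2 x| ≤ ε)
    (hdiff : ∀ ε : ℝ, 0 < ε → ∀ᶠ p : ι × P in l ×ˢ 𝓝 0, ∀ x, ‖x‖ ≤ R →
      |V p.1 p.2 x - V p.1 0 x - V' p.2 x| ≤ ε * ‖p.2‖)
    (hV0 : ∀ b, Tendsto (fun i => ∫ x, V i 0 x * z b x ∂(N i)) l (𝓝 0))
    (hpos : ∀ b, b ≠ 0 → 0 < ∫ x, V' b x * z b x ∂κ)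
    {ε : ℝ} (hε : 0 < ε) :
    ∀ᶠ i in l, ∃ a : P, ‖a‖ ≤ ε ∧ ∀ b, ∫ x, V i a x * z b x ∂(N i) = 0 := sorry

/-- DY-H1: uniform upper density of the model -/
theorem th_HS_le (hE : Module.finrank ℝ E = m + 1) {K b : ℝ} (hb : om m < b) :
    ∃ r₀ > 0, ∀ (W : E → ℝ) (c : ℝ), TubeG W c K → ∀ x, W x = 0 → ∀ r, 0 < r → r ≤ r₀ →
      th m (HS m W) x r ≤ b := sorry

theorem density_HS_le (hE : Module.finrank ℝ E = m + 1) {W : E → ℝ} {c K : ℝ} (hW : TubeG W c K)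
    (x : E) {b : ℝ} (hb : om m < b) : ∀ᶠ r in 𝓝[>] (0 : ℝ), th m (HS m W) x r ≤ b := sorry

theorem locFin_HS (hE : Module.finrank ℝ E = m + 1) {W : E → ℝ} {c K : ℝ} (hW : TubeG W c K) :
    IsLocallyFiniteMeasure (HS m W) := sorry

/-- DY-H2: lower density of the model -/
theorem HS_lower (hE : Module.finrank ℝ E = m + 1) {W : E → ℝ} {c K : ℝ} (hW : TubeG W c K)
    {y : E} (hy : W y = 0) {ε : ℝ} (hε : 0 < ε) :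
    ∀ᶠ r in 𝓝[>] (0 : ℝ), ENNReal.ofReal ((1 - ε) * r ^ m)
      * (μH[m] : Measure (EuclideanSpace ℝ (Fin m))) (closedBall 0 1)
        ≤ HS m W (closedBall y r) := sorry

theorem eq_zero_of_ae_HS (hE : Module.finrank ℝ E = m + 1) {W : E → ℝ} {c K : ℝ}
    (hW : TubeG W c K) {f : E → ℝ} (hf : Continuous f) (h0 : ∀ᵐ x ∂(HS m W), f x = 0) :
    ∀ x, W x = 0 → f x = 0 := sorry

theorem gauss16 (hm : 0 < m) {CR : ℝ} : ∃ G : ℝ, ∀ μ : Measure E, IsFiniteMeasureOnCompacts μ →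
    Ratio m μ CR → ∫⁻ x, ENNReal.ofReal (Real.exp (-‖x‖ ^ 2 / 16)) ∂μ ≤ ENNReal.ofReal G := sorry

/-- DY-F1: push-forward -/
theorem push_le {μ : Measure E} [IsFiniteMeasureOnCompacts μ] {φ : E → E} (hφ : ContDiff ℝ 1 φ)
    {S : Set E} (hS : MeasurableSet S) [IsLocallyFiniteMeasure ((μH[m] : Measure E).restrict S)]
    (hlow : ∀ y ∈ S, ∀ ε : ℝ, 0 < ε → ∀ᶠ r in 𝓝[>] (0 : ℝ), ENNReal.ofReal ((1 - ε) * r ^ m)
      * (μH[m] : Measure (EuclideanSpace ℝ (Fin m))) (closedBall 0 1)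
        ≤ (μH[m] : Measure E).restrict S (closedBall y r))
    {G : Set E} (hG : MeasurableSet G) (hGS : MapsTo φ G S) {L : ℝ}
    (hinj : ∀ p ∈ G, ∀ p' ∈ G, dist p p' ≤ L * dist (φ p) (φ p'))
    {T : E → Submodule ℝ E} (htan : ∀ᵐ x ∂μ, x ∈ G → IsApproxTangent m μ x 1 (T x))
    {J : E → ℝ} (hJm : AEStronglyMeasurable J μ) {B : ℝ} (hJB : ∀ x, 0 ≤ J x ∧ J x ≤ B)
    (hJ : ∀ᵐ x ∂μ, x ∈ G → J x ≤ ((fderiv ℝ φ x).toLinearMap.domRestrict (T x)).normDet)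
    {g : E → ℝ≥0∞} (hg : Measurable g) :
    ∫⁻ x in G, ENNReal.ofReal (J x) * g (φ x) ∂μ ≤ ∫⁻ y in S, g y ∂(μH[m] : Measure E) := sorry

/-- DY-F2: Jacobian of the foot map -/
theorem jac_ft_ge (hE : Module.finrank ℝ E = m + 1) (K : ℝ) : ∃ C : ℝ, 0 ≤ C ∧
    ∀ (W : E → ℝ) (c : ℝ), TubeG W c K → ∀ x, |W x| < c → ∀ T : Submodule ℝ E,
      Module.finrank ℝ T = m →
      1 - W x * tr (fderiv ℝ (grad W) x) - C * (W x ^ 2 + ‖proj T (grad W x)‖ ^ 2)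
        ≤ ((fderiv ℝ (ft W) x).toLinearMap.domRestrict T).normDet := sorry

/-- DY-P: propagation of the density bound -/
theorem propagate (hm : 0 < m) (hE : Module.finrank ℝ E = m + 1) (c K CR : ℝ) :
    ∃ R₀ > 0, ∃ r₂ > 0, ∀ r₁, 0 < r₁ → r₁ ≤ r₂ → ∀ ε₁, 0 < ε₁ → ε₁ ≤ r₁ →
      ∃ (c₀ : ℝ) (n : ℕ), 0 < c₀ ∧ ∀ R, R₀ ≤ R → ∀ (W : E → ℝ) (μ : Measure E)
        (T : E → Submodule ℝ E) (H : E → E), TubeG W c K → Slice m μ T H → Ratio m μ CR →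
        (∀ x, W x = 0 → ‖x‖ ≤ R₀ → th m μ x r₁ ≤ 5 / 4 * om m) →
        en μ T H W (R + 3) ≤ c₀ / (R + 1) ^ n →
        ∀ x, W x = 0 → ‖x‖ ≤ R + 1 → th m μ x (ε₁ / (R + 1)) ≤ 3 / 2 * om m := sorry

/-- good points at scale `r₀` -/
def Good (m : ℕ) (μ : Measure E) (T : E → Submodule ℝ E) (H : E → E) (W : E → ℝ)
    (R r₀ γ : ℝ) (p : E) : Prop :=
  ‖p‖ ≤ R ∧ (∀ b < om m, ∀ᶠ r in 𝓝[>] (0 : ℝ), b ≤ th m μ p r) ∧
    ∀ t, 0 < t → t ≤ r₀ → ∫ y in closedBall p t,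
      (tau T W y ^ 2 + ‖vel T H y‖ ^ 2 + W y ^ 2 / r₀ ^ 2) ∂μ ≤ γ * t ^ m

/-- DY-Q: good points -/
theorem good_points (hm : 0 < m) (hE : Module.finrank ℝ E = m + 1) (c K CR : ℝ) :
    ∃ ε₂ > 0, ∃ γ > 0, ∀ R r₀ : ℝ, 0 ≤ R → 0 < r₀ → r₀ ≤ ε₂ / (R + 1) →
      ∀ (W : E → ℝ) (μ : Measure E) (T : E → Submodule ℝ E) (H : E → E),
        TubeG W c K → Slice m μ T H → Ratio m μ CR →
        (∀ x, W x = 0 → ‖x‖ ≤ R + 1 → th m μ x r₀ ≤ 3 / 2 * om m) →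
        (∀ p, Good m μ T H W R r₀ γ p →
          |W p| < c ∧ ∀ (q : ℕ) (T' : Submodule ℝ E), IsApproxTangent m μ p q T' → q ≤ 1) ∧
        ∀ p p', Good m μ T H W R r₀ γ p → Good m μ T H W R r₀ γ p' →
          dist p p' ≤ 4 * dist (ft W p) (ft W p') := sorry

/-- DY-S2 -/
theorem mass_bound (hm : 0 < m) (hE : Module.finrank ℝ E = m + 1) (c K CR : ℝ) (q : ℕ) :
    ∃ R₀ > 0, ∃ r₂ > 0, ∀ r₁, 0 < r₁ → r₁ ≤ r₂ → ∃ Q₀ > 0, ∃ C : ℝ, 0 ≤ C ∧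
      ∀ (W : E → ℝ) (μ : Measure E) (T : E → Submodule ℝ E) (H : E → E) (σ Q : ℝ),
        TubeG W c K → GSlice m μ T H → Intg m μ T → Ratio m μ CR →
        (∀ y, W y = 0 → |dfc W y| ≤ σ * (1 + ‖y‖) ^ q) →
        (∀ x, W x = 0 → ‖x‖ ≤ R₀ → th m μ x r₁ ≤ 5 / 4 * om m) →
        DD μ W 0 + TG μ T W 0 + dis μ T H + σ ^ 2 ≤ Q → Q ≤ Q₀ →
        ENNReal.ofReal (FA μ)
          ≤ gaussArea m {x | W x = 0} univ + ENNReal.ofReal (C * Q ^ (3 / 5 : ℝ)) := sorry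

end Vale.Agent.P218DY.Plan
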