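import Vale.Agent.P218DY.Tube2
import Vale.Agent.P218.H313.Static

/-! Estimates on one Gaussian slice, relative to an almost self-shrinker. -/

open MeasureTheory Set Filter Topology Metric
open scoped ENNReal NNReal RealInnerProductSpace

namespace Vale.Agent.P218DY

open Vale.Agent.P214 (proj divAlong)
open Vale.Agent.P218 Vale.Agent.P218.H313

set_option linter.unusedSectionVars false
set_option linter.unusedVariables false

variable {E : Type*} [NormedAddCommGroup E] [InnerProductSpace ℝ E] [FiniteDimensional ℝ E]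
variable {m : ℕ} {c K : ℝ}

/-- pointwise estimate behind the tilt bound -/
lemma exists_tilt_pt (hE : Module.finrank ℝ E = m + 1) (c K : ℝ) :
    ∃ C : ℝ, 0 ≤ C ∧ ∀ W : E → ℝ, TubeG W c K → ∀ (x : E) (T : Submodule ℝ E),
      Module.finrank ℝ T = m → ∀ d : ℝ, (|W x| < c → |df W x| ≤ d) →
      -(W x * (tr ((proj T).comp (fderiv ℝ (grad W) x)) - 1 / 2 * ⟪x, grad W x⟫))
        ≤ 1 / 4 * ‖proj T (grad W x)‖ ^ 2 + C * W x ^ 2 + 1 / 2 * d ^ 2 := by
  by_cases hcK : ¬ (0 < c ∧ 1 ≤ K)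
  · exact ⟨0, le_rfl, fun W hW => absurd ⟨hW.cpos, hW.K1⟩ hcK⟩
  push Not at hcK
  obtain ⟨hc, hK1⟩ := hcK
  have hK : 0 ≤ K := by linarith
  set n : ℝ := (Module.finrank ℝ E : ℝ) with hn
  have hn0 : 0 ≤ n := by rw [hn]; positivity
  set K' := n * K ^ 3 with hK'
  have hK'0 : 0 ≤ K' := by positivity
  set c₁ := min c (1 / (4 * (K' + 1))) with hc₁
  have hc₁0 : 0 < c₁ := lt_min hc (by positivity)
  refine ⟨n * K ^ 2 + 2 + (n + 1) * K / c₁, by positivity, fun W hW x T hT d hd => ?_⟩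
  set A := tr ((proj T).comp (fderiv ℝ (grad W) x)) - 1 / 2 * ⟪x, grad W x⟫ with hA
  set q := tr ((fderiv ℝ (grad W) x).comp (fderiv ℝ (grad W) x)) with hq
  set g2 := ‖proj T (grad W x)‖ ^ 2 with hg2
  have hg20 : 0 ≤ g2 := sq_nonneg _
  set w := W x with hw
  have hw2 : 0 ≤ w ^ 2 := sq_nonneg _
  by_cases hx : |w| < c₁
  · have hxc : |w| < c := hx.trans_le (min_le_left _ _)
    have h2 : |A + (q + 1 / 2) * w - df W x| ≤ K' * (w ^ 2 + g2) :=
      hW.trace_est hE x T hT hxc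
    have h3 : |q| ≤ n * K ^ 2 := hW.q_le x
    have h4 : |w| * K' ≤ 1 / 4 := by
      have h5 : |w| ≤ 1 / (4 * (K' + 1)) := hx.le.trans (min_le_right _ _)
      have h6 : |w| * K' ≤ (1 / (4 * (K' + 1))) * K' := by gcongr
      refine h6.trans ?_
      rw [div_mul_eq_mul_div, div_le_div_iff₀ (by positivity) (by norm_num)]
      nlinarith
    have h5 : -(w * A) = (q + 1 / 2) * w ^ 2 - w * (A + (q + 1 / 2) * w - df W x)
        - w * df W x := by ring
    have h6 : -(w * (A + (q + 1 / 2) * w - df W x)) ≤ 1 / 4 * (w ^ 2 + g2) := by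
      calc -(w * (A + (q + 1 / 2) * w - df W x)) ≤ |w * (A + (q + 1 / 2) * w - df W x)| :=
            neg_le_abs _
        _ = |w| * |A + (q + 1 / 2) * w - df W x| := by rw [abs_mul]
        _ ≤ |w| * (K' * (w ^ 2 + g2)) := by gcongr
        _ = (|w| * K') * (w ^ 2 + g2) := by ring
        _ ≤ 1 / 4 * (w ^ 2 + g2) := by gcongr
    have h7 : (q + 1 / 2) * w ^ 2 ≤ (n * K ^ 2 + 1 / 2) * w ^ 2 := by
      have := le_abs_self q
      nlinarith
    have h8 : 0 ≤ (n + 1) * K / c₁ * w ^ 2 := by positivity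
    have h9 : -(w * df W x) ≤ 1 / 2 * w ^ 2 + 1 / 2 * d ^ 2 := by
      have h10 : df W x ^ 2 ≤ d ^ 2 := by
        rw [← sq_abs (df W x)]
        exact pow_le_pow_left₀ (abs_nonneg _) (hd hxc) 2
      nlinarith [sq_nonneg (w + df W x)]
    rw [h5]
    nlinarith
  · push Not at hx
    have h1 : |A| ≤ (n + 1) * K := by
      have e1 := abs_tr_proj_comp_le T (fderiv ℝ (grad W) x)
      have e2 := hW.b2 x
      have e3 := hW.bx x
      have e4 : |A| ≤ |tr ((proj T).comp (fderiv ℝ (grad W) x))| + |1 / 2 * ⟪x, grad W x⟫| :=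
        abs_sub _ _
      rw [abs_mul, abs_of_pos (by norm_num : (0 : ℝ) < 1 / 2)] at e4
      have e5 : (n : ℝ) * ‖fderiv ℝ (grad W) x‖ ≤ n * K := by gcongr
      nlinarith
    have h2 : |w| ≤ w ^ 2 / c₁ := by
      rw [le_div_iff₀ hc₁0, ← sq_abs w]
      nlinarith [abs_nonneg w]
    have h3 : -(w * A) ≤ (n + 1) * K / c₁ * w ^ 2 := by
      calc -(w * A) ≤ |w * A| := neg_le_abs _
        _ = |w| * |A| := by rw [abs_mul]
        _ ≤ (w ^ 2 / c₁) * ((n + 1) * K) := by gcongr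
        _ = _ := by ring
    have h4 : 0 ≤ (n * K ^ 2 + 2) * w ^ 2 := by positivity
    nlinarith [sq_nonneg d]

variable [MeasurableSpace E] [BorelSpace E]
variable {μ : Measure E} {T : E → Submodule ℝ E} {H : E → E} {W : E → ℝ}

namespace TubeG

lemma int_TG (hW : TubeG W c K) (hS : GSlice m μ T H) (j : ℕ) :
    Integrable (fun x => wt j x * ‖proj (T x) (grad W x)‖ ^ 2 * rho x) μ := by
  refine hS.integrable_dom (g := fun x => wt j x * ‖grad W x‖ ^ 2)
    ((PG.wt j).cont.aestronglyMeasurable.mul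
      ((hS.proj_apply_meas hW.pg_grad.cont.aestronglyMeasurable).norm.pow 2))
    ((PG.wt j).b0.mul (hW.pg_grad.b0.norm.pow 2)) fun x => ?_
  have h1 := norm_proj_apply_le (T x) (grad W x)
  have h2 := wt_pos j x
  rw [abs_of_nonneg (by positivity), abs_of_nonneg (by positivity)]
  gcongr

lemma int_DD (hW : TubeG W c K) (hS : GSlice m μ T H) (j : ℕ) :
    Integrable (fun x => W x ^ 2 * wt j x * rho x) μ :=
  hS.integrable_PB ((hW.cont.pow 2).mul (PG.wt j).cont).aestronglyMeasurable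
    ((hW.pg.b0.pow 2).mul (PG.wt j).b0)

lemma int_VW (hW : TubeG W c K) (hS : GSlice m μ T H) (j : ℕ) :
    Integrable (fun x => W x ^ 2 * wt j x * ‖vel T H x‖ ^ 2 * rho x) μ :=
  hS.integrable_mul_vel_sq ((hW.cont.pow 2).mul (PG.wt j).cont).aestronglyMeasurable
    ((hW.pg.b0.pow 2).mul (PG.wt j).b0)

lemma VW_zero_le (hW : TubeG W c K) (hS : GSlice m μ T H) :
    VW μ T H W 0 ≤ K ^ 2 * dis μ T H := by
  unfold VW dis
  rw [← integral_const_mul]
  refine integral_mono (hW.int_VW hS 0) (hS.int_vel_sq.const_mul _) fun x => ?_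
  have h1 := hW.b0 x
  have h2 : W x ^ 2 ≤ K ^ 2 := by rw [← sq_abs]; gcongr
  have h3 := rho_pos x
  have h4 : 0 ≤ ‖vel T H x‖ ^ 2 * rho x := by positivity
  simp only [wt, pow_zero, mul_one]
  nlinarith

end TubeG

/-- the tangential gradient is controlled on a good slice -/
theorem exists_TG_le (hE : Module.finrank ℝ E = m + 1) (c K : ℝ) :
    ∃ C : ℝ, 0 ≤ C ∧ ∀ (W : E → ℝ), TubeG W c K → ∀ (μ : Measure E) (T : E → Submodule ℝ E)
      (H : E → E), GSlice m μ T H → ∀ (s M : ℝ) (q : ℕ),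
      (∀ x, |W x| < c → |df W x| ≤ s * (1 + ‖x‖) ^ q) →
      ∫ x, (1 + ‖x‖) ^ (2 * q) * rho x ∂μ ≤ M →
      TG μ T W 0 ≤ C * (DD μ W 0 + dis μ T H + s ^ 2 * M) := by
  obtain ⟨C₀, hC₀, hpt⟩ := exists_tilt_pt (E := E) hE c K
  refine ⟨2 * (C₀ + 1), by positivity, fun W hW μ T H hS s M q hdf hM => ?_⟩
  have hXpg : PG (fun x => W x • grad W x) := hW.pg.smul hW.pg_grad
  have hwfv := hS.wfv hXpg.cd hXpg.b0 hXpg.b1
  have hdiv : ∀ x, divAlong (T x) (fun x => W x • grad W x) x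
      = W x * tr ((proj (T x)).comp (fderiv ℝ (grad W) x)) + ‖proj (T x) (grad W x)‖ ^ 2 := by
    intro x
    rw [divAlong_smul (T x) (hW.diff x) (hW.pg_grad.diff x), divAlong_eq, ← norm_proj_sq]
  have i0 := hW.int_DD hS 0
  have i1 := hW.int_TG hS 0
  have i2 := hS.int_vel_sq
  have i3 := hS.mom (2 * q)
  have j1 : Integrable (fun x => (divAlong (T x) (fun x => W x • grad W x) x
      - 1 / 2 * ⟪x, W x • grad W x⟫) * rho x) μ := by
    have a1 := hS.integrable_div hXpg.cd hXpg.b1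
    have a2 : Integrable (fun x => ⟪x, W x • grad W x⟫ * rho x) μ :=
      hS.integrable_PB (continuous_id.inner hXpg.cont).aestronglyMeasurable
        (PB.id'.inner' hXpg.b0)
    refine (a1.sub (a2.const_mul (1 / 2))).congr (Eventually.of_forall fun x => ?_)
    simp only [Pi.sub_apply]
    ring
  have j2 := hS.integrable_inner_vel hXpg.cont.aestronglyMeasurable hXpg.b0
  have e0 : ∫ x, ((divAlong (T x) (fun x => W x • grad W x) x
      - 1 / 2 * ⟪x, W x • grad W x⟫) * rho x + ⟪W x • grad W x, vel T H x⟫ * rho x) ∂μ = 0 := by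
    rw [integral_add j1 j2, hwfv]; ring
  have k1 : Integrable (fun x => (C₀ + 1 / 2) * (W x ^ 2 * wt 0 x * rho x)
      + 1 / 2 * (‖vel T H x‖ ^ 2 * rho x)
      + 1 / 2 * s ^ 2 * ((1 + ‖x‖) ^ (2 * q) * rho x)) μ :=
    ((i0.const_mul _).add (i2.const_mul _)).add (i3.const_mul _)
  have e1 : ∫ x, 3 / 4 * (wt 0 x * ‖proj (T x) (grad W x)‖ ^ 2 * rho x) ∂μ
      ≤ ∫ x, (((divAlong (T x) (fun x => W x • grad W x) x
      - 1 / 2 * ⟪x, W x • grad W x⟫) * rho x + ⟪W x • grad W x, vel T H x⟫ * rho x)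
      + ((C₀ + 1 / 2) * (W x ^ 2 * wt 0 x * rho x) + 1 / 2 * (‖vel T H x‖ ^ 2 * rho x)
      + 1 / 2 * s ^ 2 * ((1 + ‖x‖) ^ (2 * q) * rho x))) ∂μ := by
    refine integral_mono_ae (i1.const_mul _) ((j1.add j2).add k1) ?_
    filter_upwards [hS.mc.dim] with x hx
    have h1 := hpt W hW x (T x) hx _ (hdf x)
    have h4 := rho_pos x
    have h5 : -⟪W x • grad W x, vel T H x⟫ ≤ 1 / 2 * W x ^ 2 + 1 / 2 * ‖vel T H x‖ ^ 2 := by
      have h6 : |⟪W x • grad W x, vel T H x⟫| ≤ |W x| * ‖vel T H x‖ := by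
        refine (abs_real_inner_le_norm _ _).trans ?_
        rw [norm_smul, Real.norm_eq_abs]
        gcongr
        exact mul_le_of_le_one_right (abs_nonneg _) (hW.b1 x)
      have h7 := neg_le_abs ⟪W x • grad W x, vel T H x⟫
      have h8 : W x ^ 2 = |W x| ^ 2 := (sq_abs _).symm
      rw [h8]
      nlinarith [sq_nonneg (|W x| - ‖vel T H x‖)]
    have h9 : (s * (1 + ‖x‖) ^ q) ^ 2 = s ^ 2 * (1 + ‖x‖) ^ (2 * q) := by
      rw [mul_pow, ← pow_mul, mul_comm q 2]
    rw [h9] at h1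
    rw [hdiv, real_inner_smul_right]
    simp only [wt, pow_zero, mul_one, one_mul]
    have h10 : 3 / 4 * ‖proj (T x) (grad W x)‖ ^ 2
        ≤ (W x * tr ((proj (T x)).comp (fderiv ℝ (grad W) x)) + ‖proj (T x) (grad W x)‖ ^ 2
          - 1 / 2 * (W x * ⟪x, grad W x⟫)) + ⟪W x • grad W x, vel T H x⟫
          + ((C₀ + 1 / 2) * W x ^ 2 + 1 / 2 * ‖vel T H x‖ ^ 2
            + 1 / 2 * s ^ 2 * (1 + ‖x‖) ^ (2 * q)) := by
      nlinarith
    have h11 := mul_le_mul_of_nonneg_right h10 h4.le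
    nlinarith
  have j12 : Integrable (fun x => (divAlong (T x) (fun x => W x • grad W x) x
      - 1 / 2 * ⟪x, W x • grad W x⟫) * rho x + ⟪W x • grad W x, vel T H x⟫ * rho x) μ := j1.add j2
  rw [integral_add j12 k1, e0, zero_add, integral_comb i0 i2 i3, integral_const_mul] at e1
  have e2 : 3 / 4 * TG μ T W 0 ≤ (C₀ + 1 / 2) * DD μ W 0 + 1 / 2 * dis μ T H
      + 1 / 2 * s ^ 2 * ∫ x, (1 + ‖x‖) ^ (2 * q) * rho x ∂μ := e1
  have h4 := DD_nonneg (μ := μ) (W := W) 0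
  have h5 := dis_nonneg (μ := μ) (T := T) (H := H)
  have h6 : 0 ≤ ∫ x, (1 + ‖x‖) ^ (2 * q) * rho x ∂μ :=
    integral_nonneg fun x => mul_nonneg (by positivity) (rho_pos x).le
  have h7 : s ^ 2 * ∫ x, (1 + ‖x‖) ^ (2 * q) * rho x ∂μ ≤ s ^ 2 * M := by gcongr
  have h8 : 0 ≤ s ^ 2 * M := (mul_nonneg (sq_nonneg s) h6).trans h7
  nlinarith [mul_nonneg hC₀ h4, mul_nonneg hC₀ h5, mul_nonneg hC₀ h8]

/-- the second moment of the squared distance is controlled on a good slice -/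
theorem DD_one_le (hW : TubeG W c K) (hS : GSlice m μ T H) :
    DD μ W 1 ≤ (1 + 4 * m) * DD μ W 0 + 32 * TG μ T W 0 + 8 * K ^ 2 * dis μ T H := by
  have hVW := hW.VW_zero_le hS
  set F : E → ℝ := fun x => W x ^ 2 with hF
  have hFpg : PG F := hW.pg.pow 2
  have hXpg : PG (fun x => F x • x) := hFpg.smul PG.id'
  have hwfv := hS.wfv hXpg.cd hXpg.b0 hXpg.b1
  -- integrability
  have i0 := hW.int_DD hS 0
  have i1 := hW.int_TG hS 0
  have i2 := hW.int_VW hS 0
  have iq : Integrable (fun x => W x ^ 2 * ‖x‖ ^ 2 * rho x) μ :=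
    hS.integrable_PB ((hW.cont.pow 2).mul (continuous_norm.pow 2)).aestronglyMeasurable
      ((hW.pg.b0.pow 2).mul PB.normSq)
  set Q := ∫ x, W x ^ 2 * ‖x‖ ^ 2 * rho x ∂μ with hQ
  have eD1 : DD μ W 1 = DD μ W 0 + Q := by
    have := integral_comb2 i0 iq 1 1
    simp only [one_mul] at this
    rw [DD_eq 0, hQ, ← this, DD_eq 1]
    congr 1
    ext x
    simp only [wt, pow_zero, pow_one]
    ring
  have hdivle : 1 / 2 * Q ≤ m * DD μ W 0 + (1 / 8 * Q + 8 * TG μ T W 0)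
      + (1 / 8 * Q + 2 * VW μ T H W 0) := by
    have e1 : 1 / 2 * Q = ∫ x, (divAlong (T x) (fun x => F x • x) x * rho x) ∂μ
        + ∫ x, ⟪F x • x, vel T H x⟫ * rho x ∂μ := by
      have j1 := hS.integrable_div hXpg.cd hXpg.b1
      have j2 : ∫ x, (divAlong (T x) (fun x => F x • x) x - 1 / 2 * ⟪x, F x • x⟫) * rho x ∂μ
          = ∫ x, divAlong (T x) (fun x => F x • x) x * rho x ∂μ - 1 / 2 * Q := by
        have := integral_comb2 j1 iq 1 (-(1 / 2))
        simp only [one_mul, neg_mul, ← sub_eq_add_neg] at this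
        rw [hQ, ← this]
        congr 1
        ext x
        rw [real_inner_smul_right, real_inner_self_eq_norm_sq]
        simp only [hF]
        ring
      rw [j2] at hwfv
      linarith
    have e2 : ∫ x, (divAlong (T x) (fun x => F x • x) x * rho x) ∂μ
        ≤ m * DD μ W 0 + (1 / 8 * Q + 8 * TG μ T W 0) := by
      have e3 : m * DD μ W 0 + (1 / 8 * Q + 8 * TG μ T W 0)
          = ∫ x, (m * (W x ^ 2 * wt 0 x * rho x) + 1 / 8 * (W x ^ 2 * ‖x‖ ^ 2 * rho x)
            + 8 * (wt 0 x * ‖proj (T x) (grad W x)‖ ^ 2 * rho x)) ∂μ := by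
        rw [integral_comb i0 iq i1]
        change _ = m * DD μ W 0 + 1 / 8 * Q + 8 * TG μ T W 0
        ring
      rw [e3]
      refine integral_mono_ae (hS.integrable_div hXpg.cd hXpg.b1)
        (((i0.const_mul _).add (iq.const_mul _)).add (i1.const_mul _)) ?_
      filter_upwards [hS.mc.dim] with x hx
      have h4 := rho_pos x
      have h5 : divAlong (T x) (fun x => F x • x) x
          = W x ^ 2 * m + 2 * W x * ⟪proj (T x) (grad W x), x⟫ := by
        rw [divAlong_smul (T x) (hFpg.diff x) differentiableAt_fun_id, divAlong_id, hx, hF,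
          grad_sq (hW.diff x), map_smul, real_inner_smul_left]
      rw [h5]
      have h6 : 2 * W x * ⟪proj (T x) (grad W x), x⟫
          ≤ 1 / 8 * (W x ^ 2 * ‖x‖ ^ 2) + 8 * ‖proj (T x) (grad W x)‖ ^ 2 := by
        calc 2 * W x * ⟪proj (T x) (grad W x), x⟫ ≤ |2 * W x * ⟪proj (T x) (grad W x), x⟫| :=
              le_abs_self _
          _ = 2 * |W x| * |⟪proj (T x) (grad W x), x⟫| := by rw [abs_mul, abs_mul, abs_two]
          _ ≤ 2 * |W x| * (‖proj (T x) (grad W x)‖ * ‖x‖) := by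
              gcongr
              exact abs_real_inner_le_norm _ _
          _ ≤ 1 / 8 * (W x ^ 2 * ‖x‖ ^ 2) + 8 * ‖proj (T x) (grad W x)‖ ^ 2 := by
              have : W x ^ 2 = |W x| ^ 2 := (sq_abs _).symm
              rw [this]
              nlinarith [sq_nonneg (|W x| * ‖x‖ - 8 * ‖proj (T x) (grad W x)‖)]
      have h7 := mul_le_mul_of_nonneg_right h6 h4.le
      simp only [wt, pow_zero, mul_one, one_mul]
      nlinarith
    have e4 : ∫ x, ⟪F x • x, vel T H x⟫ * rho x ∂μ ≤ 1 / 8 * Q + 2 * VW μ T H W 0 := by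
      have e5 : 1 / 8 * Q + 2 * VW μ T H W 0 = ∫ x, (1 / 8 * (W x ^ 2 * ‖x‖ ^ 2 * rho x)
          + 2 * (W x ^ 2 * wt 0 x * ‖vel T H x‖ ^ 2 * rho x)) ∂μ := by
        rw [integral_comb2 iq i2]; rfl
      rw [e5]
      refine integral_mono (hS.integrable_inner_vel hXpg.cont.aestronglyMeasurable hXpg.b0)
        ((iq.const_mul _).add (i2.const_mul _)) fun x => ?_
      have h4 := rho_pos x
      have h6 : ⟪F x • x, vel T H x⟫ ≤ 1 / 8 * (W x ^ 2 * ‖x‖ ^ 2)
          + 2 * (W x ^ 2 * ‖vel T H x‖ ^ 2) := by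
        rw [real_inner_smul_left]
        have h7 : ⟪x, vel T H x⟫ ≤ ‖x‖ * ‖vel T H x‖ := real_inner_le_norm _ _
        have h8 : ‖x‖ * ‖vel T H x‖ ≤ 1 / 8 * ‖x‖ ^ 2 + 2 * ‖vel T H x‖ ^ 2 := by
          nlinarith [sq_nonneg (‖x‖ - 4 * ‖vel T H x‖)]
        have h9 := mul_le_mul_of_nonneg_left (h7.trans h8) (sq_nonneg (W x))
        simp only [hF]
        linarith
      have h7 := mul_le_mul_of_nonneg_right h6 h4.le
      simp only [wt, pow_zero, mul_one]
      nlinarith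
    linarith
  rw [eD1]
  have h8 : Q ≤ 4 * (m * DD μ W 0 + 8 * TG μ T W 0 + 2 * VW μ T H W 0) := by linarith
  nlinarith

end Vale.Agent.P218DY
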