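import Vale.Agent.P218DY.Defs
import Vale.Agent.P218.H313.PG
import Vale.Agent.P218.H313.W1

/-! Geometry of the tube: the ray to the foot point, the expansion of the shrinker operator,
traces along hyperplanes, normal components. -/

open MeasureTheory Set Filter Topology Metric
open scoped ENNReal NNReal RealInnerProductSpace

namespace Vale.Agent.P218DY

open Vale.Agent.P214 (proj divAlong)
open Vale.Agent.P218 Vale.Agent.P218.H313

set_option linter.unusedSectionVars false
set_option linter.unusedVariables false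

variable {E : Type*} [NormedAddCommGroup E] [InnerProductSpace ℝ E] [FiniteDimensional ℝ E]
variable {m : ℕ} {W : E → ℝ} {c K : ℝ}

namespace TubeG

lemma K0 (hW : TubeG W c K) : 0 ≤ K := zero_le_one.trans hW.K1

lemma c_le (hW : TubeG W c K) : c ≤ 1 / 4 := by
  have := hW.cK
  have h1 := hW.K1
  have h2 := hW.cpos
  nlinarith

lemma mono (hW : TubeG W c K) {c' : ℝ} (h0 : 0 < c') (h : c' ≤ c) : TubeG W c' K :=
  ⟨h0, hW.K1, (mul_le_mul_of_nonneg_right h hW.K0).trans hW.cK, hW.smooth, hW.b0, hW.b1, hW.b2,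
    hW.bx, fun x hx => hW.eik x (hx.trans_le h)⟩

lemma cont (hW : TubeG W c K) : Continuous W := hW.smooth.continuous

lemma grad_cd (hW : TubeG W c K) : ContDiff ℝ 1 (grad W) := contDiff_grad_one hW.smooth

lemma pg (hW : TubeG W c K) : PG W where
  cd := hW.smooth.of_le (by norm_num)
  b0 := PB.of_bound (C := K) fun x => by rw [Real.norm_eq_abs]; exact hW.b0 x
  b1 := PB.of_bound (C := 1) fun x => by rw [← norm_grad]; exact hW.b1 x

lemma pg_grad (hW : TubeG W c K) : PG (grad W) where
  cd := hW.grad_cd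
  b0 := PB.of_bound (C := 1) hW.b1
  b1 := PB.of_bound (C := K) hW.b2

lemma diff (hW : TubeG W c K) (x : E) : DifferentiableAt ℝ W x := hW.pg.diff x

lemma grad_diff (hW : TubeG W c K) (x : E) : HasFDerivAt (grad W) (fderiv ℝ (grad W) x) x :=
  (hW.pg_grad.diff x).hasFDerivAt

lemma hess_cont (hW : TubeG W c K) : Continuous (fderiv ℝ (grad W)) :=
  hW.grad_cd.continuous_fderiv (by norm_num)

lemma isOpen (hW : TubeG W c K) : IsOpen {x | |W x| < c} :=
  isOpen_lt hW.cont.abs continuous_const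

lemma isClosed (hW : TubeG W c K) : IsClosed {x | W x = 0} :=
  isClosed_eq hW.cont continuous_const

lemma zero_mem (hW : TubeG W c K) {x : E} (hx : W x = 0) : |W x| < c := by
  rw [hx, abs_zero]; exact hW.cpos

/-- `W` is `1`-Lipschitz -/
lemma lip (hW : TubeG W c K) (x y : E) : |W y - W x| ≤ ‖y - x‖ := by
  have h := Convex.norm_image_sub_le_of_norm_hasFDerivWithin_le (𝕜 := ℝ) (s := univ) (C := 1)
    (f := W) (f' := fderiv ℝ W) (fun z _ => (hW.diff z).hasFDerivAt.hasFDerivWithinAt)
    (fun z _ => by rw [← norm_grad]; exact hW.b1 z) convex_univ (mem_univ x) (mem_univ y)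
  rwa [one_mul, Real.norm_eq_abs] at h

/-- the gradient is `K`-Lipschitz -/
lemma grad_lip (hW : TubeG W c K) (x y : E) : ‖grad W y - grad W x‖ ≤ K * ‖y - x‖ :=
  Convex.norm_image_sub_le_of_norm_hasFDerivWithin_le (𝕜 := ℝ) (s := univ)
    (f' := fderiv ℝ (grad W)) (fun z _ => (hW.grad_diff z).hasFDerivWithinAt)
    (fun z _ => hW.b2 z) convex_univ (mem_univ x) (mem_univ y)

/-- first order expansion on a ball -/
lemma flat (hW : TubeG W c K) {x : E} {r : ℝ} {y y' : E}
    (hy : y ∈ closedBall x r) (hy' : y' ∈ closedBall x r) :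
    |W y - W y' - ⟪grad W x, y - y'⟫| ≤ K * r * ‖y - y'‖ := by
  set F : E → ℝ := fun z => W z - ⟪grad W x, z⟫ with hF
  have hFd : ∀ z ∈ closedBall x r, HasFDerivWithinAt F (fderiv ℝ W z - innerSL ℝ (grad W x))
      (closedBall x r) z := by
    intro z _
    exact ((hW.diff z).hasFDerivAt.sub (innerSL ℝ (grad W x)).hasFDerivAt).hasFDerivWithinAt
  have hlip : ∀ z ∈ closedBall x r, ‖fderiv ℝ W z - innerSL ℝ (grad W x)‖ ≤ K * r := by
    intro z hz
    have h1 := hW.grad_lip x z
    have h2 : ‖z - x‖ ≤ r := by rwa [← dist_eq_norm]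
    have hK := hW.K0
    refine ContinuousLinearMap.opNorm_le_bound _ (by
      have : 0 ≤ r := (norm_nonneg _).trans h2
      positivity) fun v => ?_
    have h3 : (fderiv ℝ W z - innerSL ℝ (grad W x)) v = ⟪grad W z - grad W x, v⟫ := by
      rw [inner_sub_left, inner_grad]; rfl
    rw [h3]
    refine (norm_inner_le_norm _ _).trans ?_
    apply mul_le_mul_of_nonneg_right _ (norm_nonneg _)
    exact h1.trans (mul_le_mul_of_nonneg_left h2 hK)
  have h4 := (convex_closedBall x r).norm_image_sub_le_of_norm_hasFDerivWithin_le (𝕜 := ℝ)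
    hFd hlip hy' hy
  simp only [hF] at h4
  rw [inner_sub_right]
  rw [Real.norm_eq_abs] at h4
  refine le_trans (le_of_eq ?_) h4
  congr 1
  ring

/-- Taylor expansion -/
lemma taylor (hW : TubeG W c K) (x y : E) :
    |W y - W x - ⟪grad W x, y - x⟫| ≤ K * ‖y - x‖ ^ 2 := by
  have h := hW.flat (x := x) (r := ‖y - x‖) (y := y) (y' := x)
    (by rw [mem_closedBall, dist_eq_norm]) (mem_closedBall_self (norm_nonneg _))
  refine h.trans (le_of_eq (by ring))

/-- the shape term is bounded -/
lemma q_le (hW : TubeG W c K) (x : E) :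
    |tr ((fderiv ℝ (grad W) x).comp (fderiv ℝ (grad W) x))| ≤ Module.finrank ℝ E * K ^ 2 := by
  refine (abs_tr_le _).trans ?_
  gcongr
  refine (ContinuousLinearMap.opNorm_comp_le _ _).trans ?_
  have := hW.b2 x
  have h0 := norm_nonneg (fderiv ℝ (grad W) x)
  nlinarith

/-- the Hessian kills the gradient in the tube -/
lemma hess_grad (hW : TubeG W c K) {x : E} (hx : |W x| < c) :
    fderiv ℝ (grad W) x (grad W x) = 0 := by
  have hd := hW.grad_diff x
  have h2 : HasFDerivAt (fun y => ‖grad W y‖ ^ 2)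
      (2 • (innerSL ℝ (grad W x)).comp (fderiv ℝ (grad W) x)) x := hd.norm_sq
  have h3 : (fun y => ‖grad W y‖ ^ 2) =ᶠ[𝓝 x] fun _ => 1 := by
    filter_upwards [hW.isOpen.mem_nhds hx] with y hy
    rw [hW.eik y hy]; norm_num
  have h4 : HasFDerivAt (fun y => ‖grad W y‖ ^ 2) (0 : E →L[ℝ] ℝ) x :=
    (hasFDerivAt_const (1 : ℝ) x).congr_of_eventuallyEq h3
  have h5 := h2.unique h4
  apply ext_inner_left ℝ
  intro v
  rw [inner_zero_right, ← hess_symm hW.smooth]
  have h6 := congrArg (fun L : E →L[ℝ] ℝ => L v) h5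
  simp at h6
  rw [real_inner_comm]
  exact h6

lemma grad_neg (W : E → ℝ) : grad (fun x => -W x) = fun x => - grad W x := by
  ext1 x
  refine grad_unique fun v => ?_
  rw [inner_neg_left, inner_grad, fderiv_fun_neg]
  rfl

lemma neg (hW : TubeG W c K) : TubeG (fun x => -W x) c K := by
  have e1 := grad_neg W
  refine ⟨hW.cpos, hW.K1, hW.cK, hW.smooth.neg, fun x => ?_, fun x => ?_, fun x => ?_,
    fun x => ?_, fun x hx => ?_⟩
  · rw [abs_neg]; exact hW.b0 x
  · rw [e1, norm_neg]; exact hW.b1 x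
  · rw [e1, fderiv_fun_neg, norm_neg]; exact hW.b2 x
  · rw [e1, inner_neg_right, abs_neg]; exact hW.bx x
  · rw [e1, norm_neg]; rw [abs_neg] at hx; exact hW.eik x hx

/-- the ray towards the foot point, starting on the positive side -/
lemma ray_pos (h : TubeG W c K) {x : E} (hx0 : 0 ≤ W x) (hx : W x < c) :
    ∀ t ∈ Icc 0 (W x), grad W (x - t • grad W x) = grad W x ∧
      W (x - t • grad W x) = W x - t := by
  have hg1 := h.grad_cd
  set e := grad W x with he
  set γ : ℝ → E := fun t => x - t • e with hc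
  have hcc : Continuous γ := by rw [hc]; fun_prop
  have hcd : ∀ t, HasDerivAt γ (-e) t := by
    intro t
    have h1 : HasDerivAt (fun t : ℝ => t • e) ((1 : ℝ) • e) t := (hasDerivAt_id t).smul_const e
    rw [one_smul] at h1
    exact h1.const_sub x
  have he1 : ‖e‖ = 1 := h.eik x (by rw [abs_of_nonneg hx0]; exact hx)
  set A : Set ℝ := {t | grad W (γ t) = e ∧ W (γ t) = W x - t} with hA
  have hAc : IsClosed A := by
    rw [hA, Set.ofPred_and]
    exact (isClosed_eq (hg1.continuous.comp hcc) continuous_const).inter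
      (isClosed_eq (h.cont.comp hcc) (by fun_prop))
  have h0 : (0 : ℝ) ∈ A := by simp [hA, hc, he]
  have key : Icc 0 (W x) ⊆ A := by
    refine (hAc.inter isClosed_Icc).Icc_subset_of_forall_mem_nhdsWithin h0 ?_
    rintro t ⟨⟨ht1, ht2⟩, ht3⟩
    have hct : |W (γ t)| < c := by
      rw [ht2, abs_of_nonneg (by linarith [ht3.2])]
      linarith [ht3.1]
    obtain ⟨ε, hε, hball⟩ := Metric.mem_nhds_iff.1
      ((h.isOpen.preimage hcc).mem_nhds (show t ∈ γ ⁻¹' {x | |W x| < c} from hct))
    have hIcc : ∀ s ∈ Icc t (t + ε / 2), |W (γ s)| < c := by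
      intro s hs
      apply hball
      rw [mem_ball, Real.dist_eq, abs_of_nonneg (by linarith [hs.1])]
      linarith [hs.2]
    have hz : ∀ s ∈ Icc t (t + ε / 2), ‖grad W (γ s) - e‖ ≤ gronwallBound 0 K 0 (s - t) := by
      apply norm_le_gronwallBound_of_norm_deriv_right_le
        (f' := fun s => fderiv ℝ (grad W) (γ s) (-e))
      · exact ((hg1.continuous.comp hcc).sub continuous_const).continuousOn
      · intro s hs
        exact (((h.grad_diff (γ s)).comp_hasDerivAt s (hcd s)).sub_const e).hasDerivWithinAt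
      · rw [ht1, sub_self, norm_zero]
      · intro s hs
        have hs' : |W (γ s)| < c := hIcc s ⟨hs.1, hs.2.le⟩
        have h1 : fderiv ℝ (grad W) (γ s) (-e)
            = fderiv ℝ (grad W) (γ s) (grad W (γ s) - e) := by
          rw [map_sub, h.hess_grad hs', map_neg, zero_sub]
        rw [h1, add_zero]
        exact (ContinuousLinearMap.le_opNorm _ _).trans
          (mul_le_mul_of_nonneg_right (h.b2 _) (norm_nonneg _))
    have hz' : ∀ s ∈ Icc t (t + ε / 2), grad W (γ s) = e := by
      intro s hs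
      have := hz s hs
      rw [gronwallBound_ε0_δ0] at this
      exact sub_eq_zero.1 (norm_le_zero_iff.1 this)
    have hw' : ∀ s ∈ Icc t (t + ε / 2), W (γ s) = W x - s := by
      intro s hs
      have h1 : ∀ r ∈ Icc t (t + ε / 2), HasDerivWithinAt (fun r => W (γ r) + r) 0
          (Icc t (t + ε / 2)) r := by
        intro r hr
        have h2 : HasFDerivAt W (fderiv ℝ W (γ r)) (γ r) := (h.diff _).hasFDerivAt
        have h3 := (h2.comp_hasDerivAt r (hcd r)).add (hasDerivAt_id r)
        have h4 : fderiv ℝ W (γ r) (-e) + 1 = 0 := by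
          rw [← inner_grad, hz' r hr, inner_neg_right, real_inner_self_eq_norm_sq, he1]
          norm_num
        rw [h4] at h3
        exact h3.hasDerivWithinAt
      have h5 := (convex_Icc t (t + ε / 2)).norm_image_sub_le_of_norm_hasDerivWithin_le
        (C := 0) h1 (fun r _ => by simp) (show t ∈ Icc t (t + ε / 2) from ⟨le_rfl, by linarith⟩) hs
      rw [zero_mul] at h5
      have h6 : W (γ s) + s = W (γ t) + t := sub_eq_zero.1 (norm_le_zero_iff.1 h5)
      linarith
    rw [mem_nhdsWithin]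
    refine ⟨Iio (t + ε / 2), isOpen_Iio, mem_Iio.2 (by linarith), ?_⟩
    rintro s ⟨hs1, hs2⟩
    have hs : s ∈ Icc t (t + ε / 2) := ⟨(mem_Ioi.1 hs2).le, (mem_Iio.1 hs1).le⟩
    exact ⟨hz' s hs, hw' s hs⟩
  intro t ht
  exact key ht

/-- **the foot point** lies on the zero set and has the same normal -/
theorem ft_spec (h : TubeG W c K) {x : E} (hx : |W x| < c) :
    W (ft W x) = 0 ∧ grad W (ft W x) = grad W x := by
  rcases le_total 0 (W x) with h0 | h0
  · rw [abs_of_nonneg h0] at hx
    have := h.ray_pos h0 hx (W x) ⟨h0, le_rfl⟩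
    exact ⟨by unfold ft; rw [this.2, sub_self], this.1⟩
  · rw [abs_of_nonpos h0] at hx
    have := h.neg.ray_pos (x := x) (by simpa using h0) hx (-W x) ⟨by simpa using h0, le_rfl⟩
    rw [grad_neg] at this
    simp only [smul_neg, neg_smul, neg_neg, sub_self, neg_inj, neg_eq_zero] at this
    exact ⟨this.2, this.1⟩

lemma ft_zero (h : TubeG W c K) {x : E} (hx : |W x| < c) : W (ft W x) = 0 := (h.ft_spec hx).1

lemma grad_ft (h : TubeG W c K) {x : E} (hx : |W x| < c) : grad W (ft W x) = grad W x :=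
  (h.ft_spec hx).2

lemma ft_self {x : E} (hx : W x = 0) : ft W x = x := by
  unfold ft; rw [hx, zero_smul, sub_zero]

lemma norm_ft_sub (h : TubeG W c K) (x : E) : ‖ft W x - x‖ ≤ |W x| := by
  unfold ft
  rw [sub_sub_cancel_left, norm_neg, norm_smul, Real.norm_eq_abs]
  exact mul_le_of_le_one_right (abs_nonneg _) (h.b1 x)

lemma norm_ft_le (h : TubeG W c K) (x : E) : ‖ft W x‖ ≤ ‖x‖ + |W x| := by
  have h1 := h.norm_ft_sub x
  have h2 := norm_add_le (ft W x - x) x
  rw [sub_add_cancel] at h2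
  linarith

lemma contDiff_ft (h : TubeG W c K) : ContDiff ℝ 1 (ft W) :=
  contDiff_id.sub ((h.smooth.of_le (by norm_num)).smul h.grad_cd)

lemma continuous_ft (h : TubeG W c K) : Continuous (ft W) := h.contDiff_ft.continuous

lemma hasFDerivAt_ft (h : TubeG W c K) (x : E) :
    HasFDerivAt (ft W) (ContinuousLinearMap.id ℝ E - (W x • fderiv ℝ (grad W) x
      + (fderiv ℝ W x).smulRight (grad W x))) x :=
  (hasFDerivAt_id x).sub ((h.diff x).hasFDerivAt.smul (h.grad_diff x))

/-- the derivative of the foot map -/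
lemma fderiv_ft (h : TubeG W c K) (x v : E) :
    fderiv ℝ (ft W) x v = v - W x • fderiv ℝ (grad W) x v - ⟪grad W x, v⟫ • grad W x := by
  rw [(h.hasFDerivAt_ft x).fderiv, inner_grad]
  simp only [sub_apply, ContinuousLinearMap.id_apply,
    add_apply, smul_apply,
    ContinuousLinearMap.smulRight_apply]
  abel

/-- the Hessian at the foot point -/
lemma hess_ft (h : TubeG W c K) {x : E} (hx : |W x| < c) :
    fderiv ℝ (grad W) (ft W x) = fderiv ℝ (grad W) x
      + W x • (fderiv ℝ (grad W) (ft W x)).comp (fderiv ℝ (grad W) x) := by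
  have h1 := (h.grad_diff (ft W x)).comp x (h.hasFDerivAt_ft x)
  have h2 : (grad W ∘ ft W) =ᶠ[𝓝 x] grad W := by
    filter_upwards [h.isOpen.mem_nhds hx] with y hy using h.grad_ft hy
  have h3 := (h1.congr_of_eventuallyEq h2.symm).unique (h.grad_diff x)
  have h4 : fderiv ℝ (grad W) (ft W x) (grad W x) = 0 := by
    rw [← h.grad_ft hx]; exact h.hess_grad (h.zero_mem (h.ft_zero hx))
  ext v
  have h5 := congrArg (fun L : E →L[ℝ] E => L v) h3
  simp only [ContinuousLinearMap.comp_apply, sub_apply,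
    ContinuousLinearMap.id_apply, add_apply, smul_apply,
    ContinuousLinearMap.smulRight_apply, map_sub, map_add, map_smul, h4, smul_zero,
    add_zero] at h5
  simp only [add_apply, smul_apply,
    ContinuousLinearMap.comp_apply]
  exact sub_eq_iff_eq_add.1 h5

lemma continuous_dfc (h : TubeG W c K) : Continuous (dfc W) := by
  unfold dfc
  exact ((trL E).continuous.comp h.hess_cont).sub
    (continuous_const.mul (continuous_id.inner h.grad_cd.continuous))

lemma continuous_df (h : TubeG W c K) : Continuous (df W) :=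
  h.continuous_dfc.comp h.continuous_ft

lemma abs_dfc_le (h : TubeG W c K) (y : E) : |dfc W y| ≤ (Module.finrank ℝ E + 1) * K := by
  unfold dfc
  have h1 := abs_tr_le (fderiv ℝ (grad W) y)
  have h2 := h.b2 y
  have h3 := h.bx y
  have h4 : (Module.finrank ℝ E : ℝ) * ‖fderiv ℝ (grad W) y‖ ≤ Module.finrank ℝ E * K := by
    gcongr
  refine (abs_sub _ _).trans ?_
  rw [abs_mul, abs_of_pos (by norm_num : (0 : ℝ) < 1 / 2)]
  have := h.K0
  nlinarith

/-- **the expansion** of the shrinker operator in the tube -/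
theorem ric (h : TubeG W c K) {x : E} (hx : |W x| < c) :
    |tr (fderiv ℝ (grad W) x) - 1 / 2 * ⟪x, grad W x⟫
      + (tr ((fderiv ℝ (grad W) x).comp (fderiv ℝ (grad W) x)) + 1 / 2) * W x - df W x|
      ≤ Module.finrank ℝ E * K ^ 3 * W x ^ 2 := by
  set B := fderiv ℝ (grad W) x with hB
  set B' := fderiv ℝ (grad W) (ft W x) with hB'
  have h1 : B' = B + W x • B'.comp B := h.hess_ft hx
  have h2 : B'.comp B = B.comp B + W x • (B'.comp B).comp B := by
    conv_lhs => rw [h1]
    ext v
    simp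
  have h3 : tr B' = tr B + W x * (tr (B.comp B) + W x * tr ((B'.comp B).comp B)) := by
    conv_lhs => rw [h1, h2]
    rw [tr_add, tr_smul, tr_add, tr_smul]
  have h4 : ⟪ft W x, grad W (ft W x)⟫ = ⟪x, grad W x⟫ - W x := by
    rw [h.grad_ft hx]
    unfold ft
    rw [inner_sub_left, real_inner_smul_left, real_inner_self_eq_norm_sq, h.eik x hx]
    ring
  have h5 : df W x = tr B' - 1 / 2 * (⟪x, grad W x⟫ - W x) := by
    unfold df dfc; rw [h4]
  have h6 : |tr ((B'.comp B).comp B)| ≤ Module.finrank ℝ E * K ^ 3 := by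
    refine (abs_tr_le _).trans ?_
    gcongr
    have a1 := h.b2 x
    have a2 := h.b2 (ft W x)
    have hK := h.K0
    calc ‖(B'.comp B).comp B‖ ≤ ‖B'.comp B‖ * ‖B‖ := ContinuousLinearMap.opNorm_comp_le _ _
      _ ≤ (‖B'‖ * ‖B‖) * ‖B‖ := by gcongr; exact ContinuousLinearMap.opNorm_comp_le _ _
      _ ≤ (K * K) * K := by gcongr
      _ = K ^ 3 := by ring
  have e : tr B - 1 / 2 * ⟪x, grad W x⟫ + (tr (B.comp B) + 1 / 2) * W x - df W x
      = -(W x ^ 2 * tr ((B'.comp B).comp B)) := by
    rw [h5, h3]; ring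
  rw [e, abs_neg, abs_mul, abs_of_nonneg (sq_nonneg _), mul_comm]
  exact mul_le_mul_of_nonneg_right h6 (sq_nonneg _)

end TubeG

end Vale.Agent.P218DY
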