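import Vale.Agent.P218DY.Tube

/-! Geometry of the tube: traces along hyperplanes, normal components, mean curvature bounds, and
the truncation of a signed distance function. -/

open MeasureTheory Set Filter Topology Metric
open scoped ENNReal NNReal RealInnerProductSpace

namespace Vale.Agent.P218DY

open Vale.Agent.P214 (proj divAlong)
open Vale.Agent.P218 Vale.Agent.P218.H313

set_option linter.unusedSectionVars false
set_option linter.unusedVariables false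

variable {E : Type*} [NormedAddCommGroup E] [InnerProductSpace ℝ E] [FiniteDimensional ℝ E]
variable {m : ℕ} {W : E → ℝ} {c K : ℝ}

/-- the distance between the unit normal of `T` and the line of the unit vector `g` -/
lemma norm_proj_eq_of_normal {T : Submodule ℝ E} {n g : E} (hn1 : ‖n‖ = 1)
    (hn : ∀ v, proj T v = v - ⟪n, v⟫ • n) (hg1 : ‖g‖ = 1) :
    ‖proj T g‖ = ‖n - ⟪n, g⟫ • g‖ := by
  have e3 : ‖proj T g‖ ^ 2 = ‖n - ⟪n, g⟫ • g‖ ^ 2 := by
    rw [H63.norm_proj_sq hn1 hn, H63.norm_sub_sq' hn1 hg1, hg1]; norm_num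
  exact (pow_left_inj₀ (norm_nonneg _) (norm_nonneg _) two_ne_zero).1 e3

/-- `|⟨n, v⟩| ≤ |⟨g, v⟩| + τ |v|` -/
lemma abs_inner_normal_le {T : Submodule ℝ E} {n g : E} (hn1 : ‖n‖ = 1)
    (hn : ∀ v, proj T v = v - ⟪n, v⟫ • n) (hg1 : ‖g‖ = 1) (v : E) :
    |⟪n, v⟫| ≤ |⟪g, v⟫| + ‖proj T g‖ * ‖v‖ := by
  have e : ⟪n, v⟫ = ⟪n, g⟫ * ⟪g, v⟫ + ⟪n - ⟪n, g⟫ • g, v⟫ := by
    rw [inner_sub_left, real_inner_smul_left]; ring
  have h1 : |⟪n, g⟫| ≤ 1 := by
    have := abs_real_inner_le_norm n g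
    rwa [hn1, hg1, mul_one] at this
  have h2 := abs_real_inner_le_norm (n - ⟪n, g⟫ • g) v
  rw [← norm_proj_eq_of_normal hn1 hn hg1] at h2
  rw [e]
  refine (abs_add_le _ _).trans (add_le_add ?_ h2)
  rw [abs_mul]
  exact mul_le_of_le_one_left (abs_nonneg _) h1

namespace TubeG

/-- the normal-normal component of the Hessian is quadratic in the tilt -/
lemma hess_nn (hW : TubeG W c K) {x : E} (hx : |W x| < c) {T : Submodule ℝ E} {n : E}
    (hn1 : ‖n‖ = 1) (hn : ∀ v, proj T v = v - ⟪n, v⟫ • n) :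
    |⟪fderiv ℝ (grad W) x n, n⟫| ≤ K * ‖proj T (grad W x)‖ ^ 2 := by
  set g := grad W x with hg
  set B := fderiv ℝ (grad W) x with hB
  have hg1 : ‖g‖ = 1 := hW.eik x hx
  have hBg : B g = 0 := hW.hess_grad hx
  set v := n - ⟪n, g⟫ • g with hv
  have hBv : B n = B v := by rw [hv, map_sub, map_smul, hBg, smul_zero, sub_zero]
  have e2 : ⟪B n, n⟫ = ⟪v, B v⟫ := by
    rw [hBv, hess_symm hW.smooth x v n]
    change ⟪v, B n⟫ = _
    rw [hBv]
  rw [e2, norm_proj_eq_of_normal hn1 hn hg1]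
  refine (abs_real_inner_le_norm _ _).trans ?_
  have h1 : ‖B v‖ ≤ K * ‖v‖ :=
    (B.le_opNorm v).trans (mul_le_mul_of_nonneg_right (hW.b2 x) (norm_nonneg _))
  calc ‖v‖ * ‖B v‖ ≤ ‖v‖ * (K * ‖v‖) := mul_le_mul_of_nonneg_left h1 (norm_nonneg _)
    _ = _ := by ring

theorem trace_est (hW : TubeG W c K) (hE : Module.finrank ℝ E = m + 1) (x : E)
    (T : Submodule ℝ E) (hT : Module.finrank ℝ T = m) (hx : |W x| < c) :
    |tr ((proj T).comp (fderiv ℝ (grad W) x)) - 1 / 2 * ⟪x, grad W x⟫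
      + (tr ((fderiv ℝ (grad W) x).comp (fderiv ℝ (grad W) x)) + 1 / 2) * W x - df W x|
      ≤ Module.finrank ℝ E * K ^ 3 * (W x ^ 2 + ‖proj T (grad W x)‖ ^ 2) := by
  obtain ⟨n, hn1, hnT, -, hn⟩ := H63.exists_normal hE hT
  have e0 : tr ((proj T).comp (fderiv ℝ (grad W) x))
      = tr (fderiv ℝ (grad W) x) - ⟪fderiv ℝ (grad W) x n, n⟫ := H63.divAlong_normal hn (grad W) x
  have h1 := hW.ric hx
  have h2 := hW.hess_nn hx hn1 hn
  rw [e0]
  set g := grad W x with hg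
  set B := fderiv ℝ (grad W) x with hB
  have e4 : tr B - ⟪B n, n⟫ - 1 / 2 * ⟪x, g⟫ + (tr (B.comp B) + 1 / 2) * W x - df W x
      = (tr B - 1 / 2 * ⟪x, g⟫ + (tr (B.comp B) + 1 / 2) * W x - df W x) - ⟪B n, n⟫ := by ring
  rw [e4]
  refine (abs_sub _ _).trans ?_
  have h3 : K ≤ Module.finrank ℝ E * K ^ 3 := by
    have h4 : (1 : ℝ) ≤ Module.finrank ℝ E := by rw [hE]; push_cast; linarith [Nat.cast_nonneg (α := ℝ) m]
    have h5 := hW.K1
    have h6 : K ≤ K ^ 3 := by nlinarith [mul_nonneg (sub_nonneg.2 h5) (sub_nonneg.2 h5)]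
    nlinarith [pow_nonneg hW.K0 3]
  have h4 := mul_le_mul_of_nonneg_right h3 (sq_nonneg ‖proj T g‖)
  linarith

theorem normal_est (hW : TubeG W c K) (hE : Module.finrank ℝ E = m + 1) (x : E)
    (T : Submodule ℝ E) (hT : Module.finrank ℝ T = m) (hx : |W x| < c) {φ : E} (hφ : φ ∈ Tᗮ)
    (v : E) :
    |⟪v, φ⟫ - ⟪v, grad W x⟫ * ⟪grad W x, φ⟫| ≤ ‖v‖ * ‖proj T (grad W x)‖ * ‖φ‖ := by
  obtain ⟨n, hn1, hnT, hnφ, hn⟩ := H63.exists_normal hE hT
  have hg1 : ‖grad W x‖ = 1 := hW.eik x hx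
  generalize grad W x = g at hg1 ⊢
  set c := ⟪n, φ⟫ with hc
  have hφ' : φ = c • n := hnφ φ hφ
  have hcφ : |c| = ‖φ‖ := by rw [hφ', norm_smul, hn1, mul_one, Real.norm_eq_abs]
  have e1 : ⟪v, φ⟫ - ⟪v, g⟫ * ⟪g, φ⟫ = c * ⟪v, n - ⟪n, g⟫ • g⟫ := by
    rw [hφ']
    simp only [real_inner_smul_right, inner_sub_right]
    rw [real_inner_comm n g]; ring
  rw [e1, abs_mul, hcφ]
  have h2 := abs_real_inner_le_norm v (n - ⟪n, g⟫ • g)
  rw [← norm_proj_eq_of_normal hn1 hn hg1] at h2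
  calc ‖φ‖ * |⟪v, n - ⟪n, g⟫ • g⟫| ≤ ‖φ‖ * (‖v‖ * ‖proj T g‖) :=
        mul_le_mul_of_nonneg_left h2 (norm_nonneg _)
    _ = _ := by ring

theorem hess_est (hW : TubeG W c K) (hE : Module.finrank ℝ E = m + 1) (x : E)
    (T : Submodule ℝ E) (hT : Module.finrank ℝ T = m) (hx : |W x| < c) (A : E →L[ℝ] E) :
    |tr ((proj T).comp A) - (tr A - ⟪A (grad W x), grad W x⟫)|
      ≤ 4 * ‖A‖ * ‖proj T (grad W x)‖ := by
  obtain ⟨n, hn1, hnT, hnφ, hn⟩ := H63.exists_normal hE hT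
  have hg1 : ‖grad W x‖ = 1 := hW.eik x hx
  generalize grad W x = g at hg1 ⊢
  have e0 : tr ((proj T).comp A) = tr A - ⟪A n, n⟫ := by
    have h1 : (proj T).comp A = A - ((innerSL ℝ n).comp A).smulRight n := by
      ext v
      simp [hn]
    rw [h1, tr_sub]
    congr 1
    have h2 := tr_comp_smulRight (ContinuousLinearMap.id ℝ E) ((innerSL ℝ n).comp A) n
    rw [ContinuousLinearMap.id_comp] at h2
    rw [h2]
    simp [real_inner_comm]
  have e1 : tr A - ⟪A n, n⟫ - (tr A - ⟪A g, g⟫) = -(⟪A n, n⟫ - ⟪A g, g⟫) := by ring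
  rw [e0, e1, abs_neg]
  have h1 := H63.abs_quad_sub_le A hn1 hg1
  have e2 : √(1 - ⟪n, g⟫ ^ 2) = ‖proj T g‖ := by
    have e3 : ‖proj T g‖ ^ 2 = 1 - ⟪n, g⟫ ^ 2 := by
      rw [H63.norm_proj_sq hn1 hn, hg1]; norm_num
    rw [← e3, Real.sqrt_sq (norm_nonneg _)]
  rw [e2] at h1
  exact h1

/-- the normal part of the position vector, in the tube -/
lemma perp_le_tube (hW : TubeG W c K) (hE : Module.finrank ℝ E = m + 1) {y : E}
    {T : Submodule ℝ E} (hT : Module.finrank ℝ T = m) (hy : |W y| < c) :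
    ‖y - proj T y‖ ≤ K + ‖y‖ * ‖proj T (grad W y)‖ := by
  obtain ⟨n, hn1, hnT, hnφ, hn⟩ := H63.exists_normal hE hT
  have h1 := abs_inner_normal_le hn1 hn (hW.eik y hy) y
  have h2 := hW.bx y
  rw [real_inner_comm] at h2
  rw [hn, sub_sub_cancel, norm_smul, hn1, mul_one, Real.norm_eq_abs]
  linarith

/-- the normal part of the position vector -/
lemma perp_le (hW : TubeG W c K) (hE : Module.finrank ℝ E = m + 1) (y : E)
    {T : Submodule ℝ E} (hT : Module.finrank ℝ T = m) :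
    ‖y - proj T y‖ ≤ K + ‖y‖ * ‖proj T (grad W y)‖ + ‖y‖ * (W y ^ 2 / c ^ 2) := by
  have hc := hW.cpos
  have hK := hW.K0
  rcases lt_or_ge |W y| c with hy | hy
  · have h1 := hW.perp_le_tube hE hT hy
    have : 0 ≤ ‖y‖ * (W y ^ 2 / c ^ 2) := by positivity
    linarith
  · have h1 := norm_sub_proj_le T y
    have h2 : 1 ≤ W y ^ 2 / c ^ 2 := by
      rw [le_div_iff₀ (by positivity), one_mul, ← sq_abs (W y)]
      gcongr
    have h3 := mul_le_mul_of_nonneg_left h2 (norm_nonneg y)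
    have : 0 ≤ ‖y‖ * ‖proj T (grad W y)‖ := by positivity
    linarith

variable [MeasurableSpace E] [BorelSpace E]

lemma norm_H_le_perp (T : E → Submodule ℝ E) (H : E → E) (y : E) :
    ‖H y‖ ≤ ‖vel T H y‖ + 1 / 2 * ‖y - proj (T y) y‖ := by
  have e : H y = vel T H y - (1 / 2 : ℝ) • (y - proj (T y) y) := by unfold vel; abel
  rw [e]
  refine (norm_sub_le _ _).trans ?_
  rw [norm_smul, Real.norm_of_nonneg (by norm_num : (0 : ℝ) ≤ 1 / 2)]

/-- the mean curvature in the tube -/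
lemma norm_H_le_tube (hW : TubeG W c K) (hE : Module.finrank ℝ E = m + 1)
    {T : E → Submodule ℝ E} (H : E → E) {y : E} (hT : Module.finrank ℝ (T y) = m)
    (hy : |W y| < c) : ‖H y‖ ≤ ‖vel T H y‖ + K / 2 + ‖y‖ / 2 * tau T W y := by
  have h1 := norm_H_le_perp T H y
  have h2 := hW.perp_le_tube hE hT hy
  unfold tau
  linarith

/-- the mean curvature -/
lemma norm_H_le (hW : TubeG W c K) (hE : Module.finrank ℝ E = m + 1)
    {T : E → Submodule ℝ E} (H : E → E) {y : E} (hT : Module.finrank ℝ (T y) = m) :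
    ‖H y‖ ≤ ‖vel T H y‖ + K / 2 + ‖y‖ / 2 * tau T W y + ‖y‖ / 2 * (W y ^ 2 / c ^ 2) := by
  have h1 := norm_H_le_perp T H y
  have h2 := hW.perp_le hE y hT
  unfold tau
  linarith

lemma tau_nonneg (T : E → Submodule ℝ E) (W : E → ℝ) (y : E) : 0 ≤ tau T W y := norm_nonneg _

lemma tau_le_one (hW : TubeG W c K) (T : E → Submodule ℝ E) (y : E) : tau T W y ≤ 1 :=
  (norm_proj_apply_le _ _).trans (hW.b1 y)

lemma tau_meas (hW : TubeG W c K) {μ : Measure E} {T : E → Submodule ℝ E} {H : E → E}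
    (hS : Slice m μ T H) : AEStronglyMeasurable (tau T W) μ :=
  (hS.proj_apply_meas hW.pg_grad.cont.aestronglyMeasurable).norm

/-- the defect at the foot point, from a bound on the zero set -/
lemma abs_df_le (hW : TubeG W c K) {σ : ℝ} {q : ℕ}
    (hσ : ∀ y, W y = 0 → |dfc W y| ≤ σ * (1 + ‖y‖) ^ q) {x : E} (hx : |W x| < c) :
    |df W x| ≤ |σ| * 2 ^ q * (1 + ‖x‖) ^ q := by
  have h1 := hσ _ (hW.ft_zero hx)
  have h2 := hW.norm_ft_le x
  have h3 := hW.c_le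
  have h4 : (1 + ‖ft W x‖) ^ q ≤ (2 * (1 + ‖x‖)) ^ q := by
    gcongr
    linarith [norm_nonneg x]
  calc |df W x| ≤ σ * (1 + ‖ft W x‖) ^ q := h1
    _ ≤ |σ| * (2 * (1 + ‖x‖)) ^ q :=
        mul_le_mul (le_abs_self _) h4 (by positivity) (abs_nonneg _)
    _ = _ := by rw [mul_pow]; ring

end TubeG

end Vale.Agent.P218DY
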